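import Crest.Agent.X212.Prf6.Main
import Crest.Agent.X212.Mcg32.Top
import Mathlib
import Crest.Agent.X212.Mcg32.Crv
import Crest.Agent.X212.Prf6.Tr
import Crest.Agent.X212.Prf6.Lf
import Crest.Agent.X212.Arc9.Lev
import Crest.Agent.X212.Mcg32.Lk
import Crest.Agent.X212.Grm47.Germ
import Crest.Agent.X212.Mor94.Main_Mg
import Crest.Agent.X212.Plb19.Main
import Crest.Agent.X212.Arx49.Dual_Mg
import Crest.Agent.X212.Cap52.Main
import Crest.Agent.X212.Lad50.Simp
import Crest.Agent.X212.Lad50.Smale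

-- ▼ part X212/Prf6/Push
section

/-!
# Row 212, PERF (helper6): pushing one foot of a handle
-/

set_option autoImplicit false
set_option linter.unusedSectionVars false
noncomputable section
open Set Filter Topology Function Complex Metric
open scoped ContDiff Manifold

namespace Crest.Agent.X212.Prf6

section
variable {M N : Type*} [TopologicalSpace M] [ChartedSpace ℂ M] [IsManifold IC ∞ M] [T2Space M]
  [TopologicalSpace N] [ChartedSpace ℂ N] [IsManifold IC ∞ N] [T2Space N] [Nonempty M]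
  {o : Or M} {o' : Or N} {A : ℂ → M} {j : M → N} {D : Unit → Bool → ℂ → N}

theorem near_pt {f : Equiv.Perm N} {x : N} : Near f {x} ↔ ∀ᶠ y in 𝓝 x, f y = y := by
  rw [Near, nhdsSet_singleton]

theorem nearI_pt {φ : ℝ → Equiv.Perm N} {x : N} :
    NearI φ {x} ↔ ∀ᶠ y in 𝓝 x, ∀ t, φ t y = y := by rw [NearI, nhdsSet_singleton]

theorem CapD.q_not (h : CapD o o' (fun _ : Unit => A) j D) : D () false 0 ∉ range (D () true) :=
  fun e => disjoint_left.1 (h.dis ((), true) ((), false) (by simp)) e ⟨0, rfl⟩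

theorem CapD.dis_q (h : CapD o o' (fun _ : Unit => A) j D) (L : Set ℂ) :
    Disjoint (D () true '' L) {D () false 0} :=
  disjoint_singleton_right.2 fun e => h.q_not (image_subset_range _ _ e)

/-- isotopies that fix the upper point -/
theorem CapD.fix (h : CapD o o' (fun _ : Unit => A) j D) (hA : An o A) (hn : NS A) (hT : TW o)
    (h2 : Germ2) {φ : ℝ → Equiv.Perm N} (hφ : Iso o' φ) (hq : NearI φ {D () false 0})
    (hp : ∀ t, φ t (D () true 0) = D () true 0) (h1 : Near (φ 1) {D () true 0}) :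
    lf j (core A) (φ 1) ∈ K o := by
  have hE := h.st () true
  set E := D () true with hE'
  set σ := Real.smoothTransition
  have σ1 : σ 1 = 1 := Real.smoothTransition.one
  have σm : ∀ t, σ t ∈ Icc (0 : ℝ) 1 := fun t =>
    ⟨Real.smoothTransition.nonneg t, Real.smoothTransition.le_one t⟩
  have hc := hφ.clamp
  obtain ⟨ρ, hρ, hb⟩ : ∃ ρ > 0, ∀ z ∈ ball (0 : ℂ) ρ, ∀ t, φ (σ t) (E z) ∈ range E := by
    have : ∀ᶠ z in 𝓝 (0 : ℂ), ∀ t ∈ Icc (0 : ℝ) 1, φ t (E z) ∈ range E :=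
      isCompact_Icc.eventually_forall_of_forall_eventually fun t _ =>
        (hφ.cont.comp (f := fun p : ℂ × ℝ => (p.2, E p.1)) (continuous_snd.prodMk
          ((cont_of_pm hE.1).comp continuous_fst))).continuousAt (hE.isOpen_range.mem_nhds
            ⟨0, (hp t).symm⟩)
    obtain ⟨ρ, hρ, hb⟩ := Metric.eventually_nhds_iff_ball.1 this
    exact ⟨ρ, hρ, fun z hz t => hb z hz _ (σm t)⟩
  obtain ⟨κ, m, δ, hδ, -, k1, k2, k3, k4⟩ := h2 (fun t z => invFun E (φ (σ t) (E z))) ρ 1 hρ one_pos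
    (fun p hp => by
      obtain ⟨w, hw⟩ := hb p.2 hp.2 p.1
      refine (cd_of_prod (F := ℝ) (ContMDiffAt.comp (g := invFun E) p ?_ (hc.sm.comp
        (f := fun p : ℝ × ℂ => (p.1, E p.2)) (contMDiff_fst.prodMk
          ((sm_of_pm hE.1).comp contMDiff_snd))).contMDiffAt)).contDiffWithinAt
      rw [comp_apply, ← hw]
      exact (hE.pm_inv w).1.contMDiffAt)
    (fun t => by rw [hp]; exact leftInverse_invFun hE.2 0)
    (fun t => by
      have := (Pm.comp (o'' := oC) (f := φ (σ t) ∘ E) (g := invFun E)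
        (by rw [comp_apply, hp]; exact hE.pm_inv 0) ((hφ.mem _ _).comp (hE.1 0))).2
      simp only [oC, one_mul] at this
      exact this)
    (Eventually.of_forall fun z => by
      simp only [σ, Real.smoothTransition.zero, hφ.zero]
      exact leftInverse_invFun hE.2 z)
    (by
      filter_upwards [(cont_of_pm hE.1).continuousAt.eventually (near_pt.1 h1)] with z hz
      rw [σ1, hz]
      exact leftInverse_invFun hE.2 z)
  have k2' : ∀ t, ∀ z ∉ closedBall (0 : ℂ) 1, κ t z = z := fun t z hz =>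
    k2 t z (not_le.1 (mt mem_closedBall_zero_iff.2 hz)).le
  have i1 := (hE.tr_iso k1 (isCompact_closedBall 0 1) k2').clamp.inv.mul hc.clamp
  have n1 : NearI (fun t => (tr E (κ (σ t)))⁻¹ * φ (σ (σ t))) {E 0, D () false 0} := by
    refine NearI.union (Z := {E 0}) (nearI_pt.2 ?_) (((hE.tr_nearI (isCompact_closedBall 0 1) k2'
      (h.dis_q _)).reparam σ).inv.mul (hq.reparam _))
    rw [← (hE.1 0).map_nhds, eventually_map]
    filter_upwards [k3, ball_mem_nhds 0 hρ] with z a b t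
    rw [Equiv.Perm.mul_apply, Equiv.Perm.inv_eq_iff_eq, hE.apply, a _ (σm t)]
    exact (invFun_eq (hb z b _)).symm
  have h0 := h.col1.col0
  have a := (h0.lf_iso i1 n1).one_mem
  have f1 : ∀ y ∈ ({E 0, D () false 0} : Set N), φ 1 y = y := by
    rintro _ (rfl | rfl)
    exacts [hp 1, (hq.near 1).fix rfl]
  have f2 := fun y => (n1.near 1).fix (x := y)
  simp only [Real.smoothTransition.one, σ, k4] at a f2
  have f3 : ∀ y ∈ ({E 0, D () false 0} : Set N), tr E (rot δ m) y = y := fun y hy => by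
    have := f2 y hy
    rw [Equiv.Perm.mul_apply, f1 y hy, Equiv.Perm.inv_eq_iff_eq] at this
    exact this.symm
  rw [← mul_inv_cancel_left (tr E (rot δ m)) (φ 1), h0.lf_mul f3 f2]
  exact mul_mem (h.lf_rot hA hn hT hδ m) a

variable (o') in
/-- the stabiliser -/
def Sb (p q : N) : Subgroup (Equiv.Perm N) where
  carrier := {f | f ∈ G o' ∧ Near f {q} ∧ f p = p}
  one_mem' := ⟨one_mem _, near_one _, rfl⟩
  mul_mem' := fun {f g} a b => ⟨mul_mem a.1 b.1, a.2.1.mul b.2.1, by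
    rw [Equiv.Perm.mul_apply, b.2.2, a.2.2]⟩
  inv_mem' := fun {f} a => ⟨inv_mem a.1, a.2.1.inv, by rw [Equiv.Perm.inv_eq_iff_eq, a.2.2]⟩

variable (o') in
/-- ends of isotopies in the stabiliser -/
def Ie (p q : N) : Subgroup (Equiv.Perm N) where
  carrier := {f | ∃ φ, Iso o' φ ∧ NearI φ {q} ∧ (∀ t, φ t p = p) ∧ φ 1 = f}
  one_mem' := ⟨_, iso_one, (near_one _).nearI, fun _ => rfl, rfl⟩
  mul_mem' := by
    rintro _ _ ⟨φ, a, b, c, rfl⟩ ⟨ψ, a', b', c', rfl⟩
    exact ⟨_, a.mul a', b.mul b', fun t => by rw [Equiv.Perm.mul_apply, c', c], rfl⟩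
  inv_mem' := by
    rintro _ ⟨φ, a, b, c, rfl⟩
    exact ⟨_, a.inv, b.inv, fun t => by rw [Equiv.Perm.inv_eq_iff_eq, c], rfl⟩

theorem Ie_le {p q : N} : Ie o' p q ≤ Sb o' p q := by
  rintro _ ⟨φ, a, b, c, rfl⟩
  exact ⟨a.mem 1, b.near 1, c 1⟩

theorem NearI.conj_pt {φ : ℝ → Equiv.Perm N} {q : N} (h : NearI φ {q}) {g : Equiv.Perm N}
    (hq : Near g {q}) : NearI (fun t => g * φ t * g⁻¹) {q} :=
  (hq.nearI.mul h).mul hq.inv.nearI

theorem Ie_conj {p q : N} {f g : Equiv.Perm N} (hf : f ∈ Ie o' p q) (hg : g ∈ Sb o' p q) :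
    g * f * g⁻¹ ∈ Ie o' p q := by
  obtain ⟨φ, a, b, c, rfl⟩ := hf
  exact ⟨_, a.conj hg.1, b.conj_pt hg.2.1, fun t => by
    rw [Equiv.Perm.mul_apply, Equiv.Perm.mul_apply, (inv_mem hg).2.2, c, hg.2.2], rfl⟩

/-- the class of the lift extends to the stabiliser -/
theorem CapD.exists_ell (h : CapD o o' (fun _ : Unit => A) j D) (hA : An o A) (hn : NS A)
    (hT : TW o) (h1 : Germ1) (h2 : Germ2) {p q : N} (hp : D () true 0 = p) (hq : D () false 0 = q) :
    ∃ L : Equiv.Perm N → Ab o, (∀ f ∈ Sb o' p q, ∀ g ∈ Sb o' p q, L (f * g) = L f * L g) ∧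
      (∀ f ∈ Ie o' p q, L f = 1) ∧
      ∀ f ∈ Sb o' p q, Near f {p} → L f = cls o (lf j (core A) f) := by
  have h0 := h.col1.col0
  rw [hp, hq] at h0
  have nP : ∀ f ∈ Sb o' p q, Near f {p} → Near f {p, q} := fun f a b => b.union a.2.1
  have mu : ∀ f ∈ Sb o' p q, ∀ g ∈ Sb o' p q, Near f {p} → Near g {p} →
      cls o (lf j (core A) (f * g)) = cls o (lf j (core A) f) * cls o (lf j (core A) g) :=
    fun f a g b c d => by
      rw [h0.lf_mul (fun _ => (nP f a c).fix) fun _ => (nP g b d).fix,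
        cls_mul (h0.lf_mem a.1 (nP f a c)) (h0.lf_mem b.1 (nP g b d))]
  have ex : ∀ f ∈ Sb o' p q, ∃ κ ∈ Ie o' p q, Near (κ⁻¹ * f) {p} := fun f hf => by
    subst hp hq
    obtain ⟨ψ, a, b, c, d⟩ := germ_st h1 (h.st () true) (hf.1 _) hf.2.2
    refine ⟨_, ⟨ψ, a, nearI_of_closed ((isCompact_closedBall 0 1).image
      (cont_of_pm (h.st () true).1)).isClosed (h.dis_q _) c, b, rfl⟩,
      near_pt.2 (d.mono fun y hy => ?_)⟩
    rw [Equiv.Perm.mul_apply, ← hy]; simp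
  choose! κ k1 k2 using ex
  have ind : ∀ f ∈ Sb o' p q, ∀ κ' ∈ Ie o' p q, Near (κ'⁻¹ * f) {p} →
      cls o (lf j (core A) ((κ f)⁻¹ * f)) = cls o (lf j (core A) (κ'⁻¹ * f)) := fun f hf κ' a b => by
    have e : (κ f)⁻¹ * κ' = (κ f)⁻¹ * f * (κ'⁻¹ * f)⁻¹ := by group
    have c : Near ((κ f)⁻¹ * κ') {p} := e ▸ (k2 f hf).mul b.inv
    have m := mul_mem (inv_mem (k1 f hf)) a
    rw [show (κ f)⁻¹ * f = (κ f)⁻¹ * κ' * (κ'⁻¹ * f) by group, mu _ (Ie_le m)
      _ (mul_mem (inv_mem (Ie_le a)) hf) c b]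
    obtain ⟨φ, a1, a2, a3, a4⟩ := m
    subst hp hq
    rw [← a4, cls_K (h.fix hA hn hT h2 a1 a2 a3 (a4 ▸ c)), one_mul]
  refine ⟨fun f => cls o (lf j (core A) ((κ f)⁻¹ * f)), fun f hf g hg => ?_,
    fun f hf => ?_, fun f hf hn => ?_⟩
  · have a := mul_mem (inv_mem (Ie_le (k1 f hf))) hf
    have e : (κ f * ((κ f)⁻¹ * f * κ g * ((κ f)⁻¹ * f)⁻¹))⁻¹ * (f * g) =
        (κ f)⁻¹ * f * ((κ g)⁻¹ * g) := by group
    simp only
    rw [ind _ (mul_mem hf hg) _ (mul_mem (k1 f hf) (Ie_conj (k1 g hg) a))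
      (e ▸ (k2 f hf).mul (k2 g hg)), e,
      mu _ a _ (mul_mem (inv_mem (Ie_le (k1 g hg))) hg) (k2 f hf) (k2 g hg)]
  · simp only
    rw [ind f (Ie_le hf) f hf (by simpa using near_one _), inv_mul_cancel, h0.lf_one, cls_one]
  · simp only
    rw [ind f hf 1 (one_mem _) (by simpa using hn), inv_one, one_mul]

/-- twists along non-separating curves that miss the two points lift to `K` -/
theorem CapD.lf_sh (h : CapD o o' (fun _ : Unit => A) j D) (hA : An o A) (hT : TW o) {B : ℂ → N}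
    (hB : An o' B) (hn : NS B) (hp : B 0 = D () true 0) (hq : D () false 0 ∉ range B) {a : ℝ}
    (ha : 6 ≤ |a|) : Near (tr B (sh fun r => Real.smoothTransition (r - a)))
      {D () true 0, D () false 0} ∧
      lf j (core A) (tr B (sh fun r => Real.smoothTransition (r - a))) ∈ K o := by
  have hC := hB.height (g := fun r => a + sq r) (contDiff_const.add sq_cd) fun r => by
    rw [deriv_const_add]; exact sq_deriv r
  set C : ℂ → N := fun z => B (z.re + (a + sq z.im : ℝ) * I)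
  have e1 : ∀ z : ℂ, z.im ∈ Icc (0 : ℝ) 1 → C z = B (z + a * I) := fun z hz => by
    show B _ = _
    rw [sq_id (abs_le.2 ⟨by linarith [hz.1], hz.2⟩)]
    congr 1
    apply Complex.ext <;> simp [add_comm]
  have e : tr B (sh fun r => Real.smoothTransition (r - a)) = tw C := by
    rw [tw, tr_sh_congr hC (hB.shift (a * I)) (fun _ => st_int) e1]
    refine (hB.wd_sh _).ext (fun z => ?_) fun x hx => ((hB.shift _).wd_sh _).out fun ⟨z, e⟩ =>
      hx ⟨_, e⟩
    have := ((hB.shift (a * I)).wd_sh Real.smoothTransition).apply (z - a * I)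
    simp only [sub_add_cancel] at this
    rw [this]
    congr 1; simp; ring
  have hr : ∀ z, C z ∉ ({D () true 0, D () false 0} : Set N) := by
    rintro z (e | e)
    · have h1 := hB.im_eq (e.trans hp.symm)
      have h2 := abs_sq_lt z.im
      simp at h1
      rw [show sq z.im = -a by linarith, abs_neg] at h2
      linarith
    · exact hq ⟨_, e⟩
  have h0 := h.col1.col0
  rw [e]
  refine ⟨tr_near hC.1 (hC.wd_sh _) (isCompact_bx 0 1) (hC.out fun z hz => ?_)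
    (disjoint_left.2 ?_), ?_⟩
  · obtain ⟨n, hn⟩ := st_int hz
    exact ⟨n, by simp [hn]⟩
  · rintro _ ⟨z, -, rfl⟩; exact hr z
  · rw [tw, h0.lf_tr hr (hC.wd_sh _)]
    refine hT _ (h0.an_jv hC hr) (h.col1.ns_jv hA.dense hC hr ?_)
    have := hB.ns_shift hn (a * I)
    unfold NS at this ⊢
    rwa [core_congr (A := fun z => B (z + a * I)) fun t => e1 t (by simp)]

end

theorem push (hS : Simp) (h1 : Germ1) (h2 : Germ2) : Push := by
  classical
  intro X Y A j D hT hA hn h φ hφ hq hp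
  obtain ⟨L, Lm, L1, l2⟩ := h.exists_ell hA hn hT h1 h2 rfl rfl
  set p := D () true 0
  set q := D () false 0
  have pq : p ≠ q := fun e => h.q_not ⟨0, e⟩
  have hY := h.col1.conn_down hn
  have e1 : ∀ w, w ≠ q → ∃ f ∈ G Y.o, Near f {q} ∧ f p = w := fun w hw => by
    obtain ⟨ψ, a, b, c⟩ := hom_gen Y.o (W := {q}ᶜ) isOpen_compl_singleton
      (by rw [compl_eq_univ_sdiff]; exact conn_diff_pt Y.o isOpen_univ hY q) pq hw
    exact ⟨_, a.mem 1, by simpa using b.near 1, c⟩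
  choose! F F1 F2 F3 using e1
  have e2 : ∀ x, x ≠ q → ∃ E : ℂ → Y.R, ∃ τ : ℂ → Equiv.Perm Y.R, St Y.o E ∧ E 0 = x ∧
      ContMDiff (IC.prod IC) IC ∞ (fun p : ℂ × Y.R => τ p.1 p.2) ∧ (∀ w, τ w ∈ G Y.o) ∧ τ 0 = 1 ∧
      (∀ w, ‖w‖ ≤ 1 → τ w x = E w) ∧ ∀ᶠ y in 𝓝 q, ∀ w, τ w y = y := fun x hx => by
    obtain ⟨E, a, rfl, b⟩ := exists_st_at Y.o (isOpen_compl_singleton.mem_nhds hx)
    obtain ⟨τ, t1, t2, t3, t4, t5⟩ := a.exists_tau one_pos
    refine ⟨E, τ, a, rfl, t1, t2, t3, fun w hw => by simpa using t4 w 0 hw (by simp), ?_⟩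
    filter_upwards [((isCompact_closedBall 0 (5 * 1)).image
      (cont_of_pm a.1)).isClosed.isOpen_compl.mem_nhds fun e => b (image_subset_range _ _ e) rfl]
      with y hy w using t5 w y hy
  choose! E τ E1 E2 T1 T2 T3 T4 T5 using e2
  have ne : ∀ f : Equiv.Perm Y.R, Near f {q} → ∀ x, x ≠ q → f x ≠ q := fun f a x hx e =>
    hx (f.injective (e.trans (a.fix rfl).symm))
  have sb : ∀ f ∈ G Y.o, Near f {q} → ∀ x, x ≠ q → (F (f x))⁻¹ * f * F x ∈ Sb Y.o p q :=
    fun f a b x hx => ⟨mul_mem (mul_mem (inv_mem (F1 _ (ne f b x hx))) a) (F1 x hx),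
      ((F2 _ (ne f b x hx)).inv.mul b).mul (F2 x hx), by
        rw [Equiv.Perm.mul_apply, Equiv.Perm.mul_apply, F3 x hx, Equiv.Perm.inv_eq_iff_eq,
          F3 _ (ne f b x hx)]⟩
  let c : Y.R → Y.R → Ab X.o := fun x y => L ((F y)⁻¹ * τ x (invFun (E x) y) * F x)
  have key : ∀ (V : Type) [NormedAddCommGroup V] [NormedSpace ℝ V] (Ψ : V → Equiv.Perm Y.R),
      ContMDiff (𝓘(ℝ, V).prod IC) IC ∞ (fun p : V × Y.R => Ψ p.1 p.2) → (∀ v, Ψ v ∈ G Y.o) →
      (∀ᶠ y in 𝓝 q, ∀ v, Ψ v y = y) → ∀ w, w ≠ q → ∀ s, ∀ᶠ t in 𝓝 s,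
        L ((F (Ψ t w))⁻¹ * Ψ t * F w) = L ((F (Ψ s w))⁻¹ * Ψ s * F w) * c (Ψ s w) (Ψ t w) := by
    intro V _ _ Ψ a1 a2 a3 w hw s
    have nq : ∀ v, Near (Ψ v) {q} := fun v => near_pt.2 (a3.mono fun y hy => hy v)
    have hx := ne _ (nq s) w hw
    set x := Ψ s w with hxe
    have sw : ContMDiff 𝓘(ℝ, V) IC ∞ fun v => Ψ v w := a1.comp (contMDiff_id.prodMk contMDiff_const)
    obtain ⟨r, hr, hb⟩ := Metric.eventually_nhds_iff_ball.1 (sw.continuous.continuousAt.eventually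
      (p := fun y => y ∈ E x '' ball 0 1) (((E1 x hx).isOpenEmbedding.isOpenMap _ isOpen_ball).mem_nhds
        ⟨0, by simp, E2 x hx⟩))
    have tx : ∀ y ∈ E x '' ball 0 1, τ x (invFun (E x) y) x = y := by
      rintro _ ⟨z, hz, rfl⟩
      rw [leftInverse_invFun (E1 x hx).2, T4 x hx z (mem_ball_zero_iff.1 hz).le]
    filter_upwards [ball_mem_nhds s hr] with t ht
    let γ : ℝ → V := fun u => s + Real.smoothTransition u • (t - s)
    have γ1 : ContDiff ℝ ∞ γ :=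
      contDiff_const.add (Real.smoothTransition.contDiff.smul contDiff_const)
    have γ2 : ∀ u, γ u ∈ ball s r := fun u => (convex_ball s r).add_smul_sub_mem (mem_ball_self hr) ht
      ⟨Real.smoothTransition.nonneg u, Real.smoothTransition.le_one u⟩
    have γ0 : γ 0 = s := by simp [γ]
    have γ3 : γ 1 = t := by simp [γ]
    have i1 : Iso Y.o fun u => τ x (invFun (E x) (Ψ (γ u) w)) := by
      refine iso_of_fam (T1 x hx) (T2 x hx) (contMDiff_iff_contDiff.1 fun u => ?_) ?_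
      · obtain ⟨z, -, hz⟩ := hb _ (γ2 u)
        refine ContMDiffAt.comp (g := invFun (E x)) u ?_ (sw.comp γ1.contMDiff u)
        rw [← hz]
        exact ((E1 x hx).pm_inv z).1.contMDiffAt
      · rw [γ0, ← hxe, ← T3 x hx]
        congr 1
        exact (E1 x hx).2 ((invFun_eq ⟨0, E2 x hx⟩).trans (E2 x hx).symm)
    have i2 : Iso Y.o fun u => Ψ (γ u) * (Ψ s)⁻¹ :=
      iso_of_fam (τ := fun v => Ψ v * (Ψ s)⁻¹) (a1.comp (contMDiff_fst.prodMk
        ((G_sm (inv_mem (a2 s))).comp contMDiff_snd))) (fun v => mul_mem (a2 v) (inv_mem (a2 s)))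
        γ1 (by rw [γ0, mul_inv_cancel])
    have i3 : (F x)⁻¹ * ((τ x (invFun (E x) (Ψ t w)))⁻¹ * (Ψ t * (Ψ s)⁻¹)) * (F x)⁻¹⁻¹ ∈ Ie Y.o p q := by
      refine ⟨_, (i1.inv.mul i2).conj (inv_mem (F1 x hx)), NearI.conj_pt
        ((NearI.inv (nearI_pt.2 ((T5 x hx).mono fun y hy _ => hy _))).mul
          ((nearI_pt.2 (a3.mono fun y hy _ => hy _)).mul (nq s).inv.nearI))
          (F2 x hx).inv, fun u => ?_, by simp only [γ3]⟩
      simp only [Equiv.Perm.mul_apply, inv_inv, F3 x hx]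
      rw [Equiv.Perm.inv_eq_iff_eq, F3 x hx, Equiv.Perm.inv_eq_iff_eq, tx _ (hb _ (γ2 u)), hxe]
      simp
    have s1 := sb _ (T2 x hx (invFun (E x) (Ψ t w))) (near_pt.2 ((T5 x hx).mono fun y hy => hy _)) x hx
    rw [tx _ (hb t ht)] at s1
    have s2 := sb _ (a2 s) (nq s) w hw
    rw [mul_comm, ← mul_one (c _ _), ← L1 _ i3, ← Lm _ s1 _ (Ie_le i3),
      ← Lm _ (mul_mem s1 (Ie_le i3)) _ s2]
    congr 1; rw [← hxe]; group
  have prim : ∀ Ψ, Iso Y.o Ψ → NearI Ψ {q} → ∀ w, w ≠ q → Lev33.Prim (Icc 0 1)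
      (fun s t => c (Ψ s w) (Ψ t w)) fun t => L ((F (Ψ t w))⁻¹ * Ψ t * F w) :=
    fun Ψ a b w hw s _ => (key ℝ Ψ a.sm a.mem (nearI_pt.1 b) w hw s).filter_mono nhdsWithin_le_nhds
  have L2 : ∀ w, L ((F w)⁻¹ * 1 * F w) = 1 := fun w => by
    rw [mul_one, inv_mul_cancel]; exact L1 _ (one_mem _)
  have hc : Lev33.Coc {q}ᶜ c := by
    refine Lev33.coc_of_loc fun x hx => ⟨E x '' ball 0 1, mem_nhdsWithin_of_mem_nhds
      (((E1 x hx).isOpenEmbedding.isOpenMap _ isOpen_ball).mem_nhds ⟨0, by simp, E2 x hx⟩), c x, ?_⟩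
    rintro _ ⟨z, hz, rfl⟩
    refine Eventually.filter_mono nhdsWithin_le_nhds ?_
    rw [← ((E1 x hx).1 z).map_nhds, eventually_map]
    filter_upwards [key ℂ (τ x) (T1 x hx) (T2 x hx) (T5 x hx) x hx z, isOpen_ball.mem_nhds hz]
      with v a b
    rw [T4 x hx z (mem_ball_zero_iff.1 hz).le, T4 x hx v (mem_ball_zero_iff.1 b).le] at a
    simp only [c, leftInverse_invFun (E1 x hx).2 _]
    exact a
  have t1 := hS Y q (Ab X.o) c hY hc (fun B hB nB qB b hb => ?_) (fun t => φ t p)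
    (hφ.cont.comp (f := fun t => (t, p)) (by fun_prop)) (fun t => ne _ (hq.near t) p pq)
    (by rw [hφ.zero, hp.fix rfl]; rfl) _ (prim φ hφ hq p pq)
  · have f0 : F p ∈ Sb Y.o p q := ⟨F1 p pq, F2 p pq, F3 p pq⟩
    have f1 : φ 1 ∈ Sb Y.o p q := ⟨hφ.mem 1, hq.near 1, hp.fix rfl⟩
    simp only [hφ.zero, Equiv.Perm.one_apply, L2, hp.fix rfl] at t1
    rw [Lm _ (mul_mem (inv_mem f0) f1) _ f0, Lm _ (inv_mem f0) _ f1, mul_right_comm,
      ← Lm _ (inv_mem f0) _ f0, inv_mul_cancel, L1 _ (one_mem _), one_mul, l2 _ f1 hp] at t1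
    exact (cls_eq_one (h.col1.col0.lf_mem f1.1 (hp.union f1.2.1))).1 t1.symm
  · set σ := Real.smoothTransition
    have hσ : ContDiff ℝ ∞ σ := Real.smoothTransition.contDiff
    let β : ℝ → ℝ := fun r => σ (r - -6) + -σ (r - 6)
    have β1 : ContDiff ℝ ∞ β := (hσ.comp (by fun_prop)).add (hσ.comp (by fun_prop)).neg
    have β2 : β 0 = 1 := by
      simp [β, σ, Real.smoothTransition.one_of_one_le, Real.smoothTransition.zero_of_nonpos]
    have β3 : ∀ t : ℝ, ∀ z : ℂ, z.im ∉ Icc (-6 : ℝ) 7 → ∃ n : ℤ, sh (fun r => t * β r) z = z + n := by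
      refine fun t z hz => ⟨0, ?_⟩
      rw [mem_Icc, not_and_or, not_le, not_le] at hz
      rcases hz with a | a
      · simp [β, σ, Real.smoothTransition.zero_of_nonpos (show z.im + 6 ≤ 0 by linarith),
          Real.smoothTransition.zero_of_nonpos (show z.im - 6 ≤ 0 by linarith)]
      · simp [β, σ, Real.smoothTransition.one_of_one_le (show 1 ≤ z.im + 6 by linarith),
          Real.smoothTransition.one_of_one_le (show 1 ≤ z.im - 6 by linarith)]
    have w0 : B 0 ≠ q := fun e => qB ⟨0, e⟩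
    have p1 := prim _ (hB.tr_iso (sh_iso (l := fun t r => t * β r)
      (contDiff_fst.mul (β1.comp contDiff_snd)) (by simp)) (fun t => sh_per _) β3)
      (tr_nearI hB.1 (fun t => hB.wd_sh _) (isCompact_bx (-6) 7) (fun t => hB.out (β3 t))
        (disjoint_singleton_right.2 fun e => qB (image_subset_range _ _ e))) _ w0
    have e : ∀ t : ℝ, tr B (sh fun r => t * β r) (B 0) = B t := fun t => by
      rw [(hB.wd_sh _).apply]; simp [β2]
    simp only [e] at p1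
    have g := inv_mem (F1 _ w0)
    have hC := hB.comp g
    have c0 : (⇑(F (B 0))⁻¹ ∘ B) 0 = p := by
      rw [comp_apply, Equiv.Perm.inv_eq_iff_eq, F3 _ w0]
    have c1 : q ∉ range (⇑(F (B 0))⁻¹ ∘ B) := fun ⟨z, e⟩ => qB ⟨z, by
      rw [comp_apply, Equiv.Perm.inv_eq_iff_eq, (F2 _ w0).fix rfl] at e; exact e⟩
    obtain ⟨n1, k1⟩ := h.lf_sh hA hT hC (nB.comp g) c0 c1 (a := -6) (by norm_num)
    obtain ⟨n2, k2⟩ := h.lf_sh hA hT hC (nB.comp g) c0 c1 (a := 6) (by norm_num)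
    have e3 : (F (B 0))⁻¹ * tr B (sh fun r => 1 * β r) * F (B 0) =
        tr (⇑(F (B 0))⁻¹ ∘ B) (sh fun r => σ (r - -6)) *
          (tr (⇑(F (B 0))⁻¹ ∘ B) (sh fun r => σ (r - 6)))⁻¹ := by
      rw [← tr_inv (hC.wd_sh _), sh_inv, ← tr_mul (hC.wd_sh _) (hC.wd_sh _), ← sh_add,
        tr_conj (hB.wd_sh _), inv_inv]
      simp only [one_mul, β]
    have n3 := n1.mul n2.inv
    have s3 := sb _ ((hB.tr_iso (sh_iso (l := fun t r => t * β r)
      (contDiff_fst.mul (β1.comp contDiff_snd)) (by simp)) (fun t => sh_per _) β3).mem 1)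
      (tr_near hB.1 (hB.wd_sh _) (isCompact_bx (-6) 7) (hB.out (β3 1))
        (disjoint_singleton_right.2 fun e => qB (image_subset_range _ _ e))) _ w0
    have e4 : B ((1 : ℝ) : ℂ) = B 0 := by simpa using hB.per 0 1
    rw [e, e4] at s3
    rw [p1.uniq hb isPreconnected_Icc (x := 0) (y := 1) (by simp) (by simp)]
    simp only [zero_mul, sh_zero, tr_one, ofReal_zero, L2, e4]
    rw [l2 _ s3 (e3 ▸ n3.mono (singleton_subset_iff.2 (Or.inl rfl))), e3,
      h.col1.col0.lf_mul (fun _ => n1.fix) fun _ => n2.inv.fix, h.col1.col0.lf_inv fun _ => n2.fix,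
      cls_K (mul_mem k1 (inv_mem k2))]
    simp

end Crest.Agent.X212.Prf6
end
end

-- ▼ part X212/Prf6/Rnd
section

/-!
# Row 212, PERF (helper6): round circles in a capped surface
-/

set_option autoImplicit false
set_option linter.unusedSectionVars false
noncomputable section
open Set Filter Topology Function Complex Metric
open scoped ContDiff Manifold

namespace Crest.Agent.X212.Prf6

theorem norm_ea_lt {ρ : ℝ} (hρ : 0 < ρ) {z : ℂ} : ‖ea ρ z‖ < ρ ↔ 0 < z.im := by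
  rw [norm_ea hρ, mul_lt_iff_lt_one_right hρ, Real.exp_lt_one_iff, neg_lt_zero,
    mul_pos_iff_of_pos_left (by positivity)]

theorem lt_norm_ea {ρ : ℝ} (hρ : 0 < ρ) {z : ℂ} : ρ < ‖ea ρ z‖ ↔ z.im < 0 := by
  rw [norm_ea hρ, lt_mul_iff_one_lt_right hρ, Real.one_lt_exp_iff, neg_pos]
  have := Real.pi_pos
  exact ⟨fun h => by by_contra k; nlinarith [mul_nonneg this.le (not_lt.1 k)], fun h => by nlinarith⟩

theorem norm_ea_real {ρ : ℝ} (hρ : 0 < ρ) (t : ℝ) : ‖ea ρ t‖ = ρ := by simp [norm_ea hρ]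

theorem ea_shift (ρ a : ℝ) (z : ℂ) :
    ea ρ (z + a * I) = ea (ρ * Real.exp (-(2 * Real.pi * a))) z := by
  rw [ea, ea, mul_add, exp_add, show 2 * Real.pi * I * (a * I) = (-(2 * Real.pi * a) : ℝ) by
    push_cast; linear_combination 2 * Real.pi * a * I_sq, ofReal_mul, ofReal_exp]
  ring

section
variable {M N : Type*} [TopologicalSpace M] [ChartedSpace ℂ M] [IsManifold IC ∞ M] [T2Space M]
  [TopologicalSpace N] [ChartedSpace ℂ N] [IsManifold IC ∞ N] [T2Space N] [Nonempty M]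
  {o : Or M} {o' : Or N} {j : M → N} {B E : ℂ → N}

theorem An.tr_shift (hB : An o' B) (a : ℝ) (l : ℝ → ℝ) :
    tr B (sh fun r => l (r - a)) = tr (fun z => B (z + a * I)) (sh l) := by
  refine (hB.wd_sh _).ext (fun z => ?_) fun x hx => ((hB.shift _).wd_sh _).out fun ⟨z, e⟩ =>
    hx ⟨_, e⟩
  have := ((hB.shift (a * I)).wd_sh l).apply (z - a * I)
  simp only [sub_add_cancel] at this
  rw [this]
  congr 1; simp; ring

/-- the outside of a closed disc -/
theorem St.conn_out (hE : St o' E) (hN : IsPreconnected (univ : Set N)) {ρ : ℝ} (hρ : 0 < ρ) :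
    IsPreconnected (E '' closedBall 0 ρ)ᶜ := by
  have := ChartedSpace.locallyConnectedSpace ℂ N
  have hc := cont_of_pm (hE.an_ea hρ).1
  rw [compl_eq_univ_sdiff]
  refine Mcg32.conn_of hN (isOpen_univ.sdiff ((isCompact_closedBall 0 ρ).image
    (cont_of_pm hE.1)).isClosed) hE.isOpen_range (fun y hy => image_subset_range _ _ hy.2)
    ((convex_halfSpace_im_lt 0).isPreconnected.image _ hc.continuousOn) ?_ ?_
  · rintro _ ⟨z, hz, rfl⟩
    refine ⟨trivial, fun ⟨w, hw, e⟩ => ?_⟩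
    rw [hE.2 e, mem_closedBall_zero_iff] at hw
    exact ((lt_norm_ea hρ).2 hz).not_ge hw
  · rintro _ ⟨⟨w, rfl⟩, -, hw⟩
    have h1 : ρ < ‖w‖ := not_le.1 fun h => hw ⟨w, mem_closedBall_zero_iff.2 h, rfl⟩
    obtain ⟨z, rfl⟩ := ea_surj hρ (w := w) (by rintro rfl; simp at h1; linarith)
    exact ⟨z, (lt_norm_ea hρ).1 h1, rfl⟩

variable {ι : Type*} {A : ι → ℂ → M} {D : ι → Bool → ℂ → N}

/-- a round circle that separates the two feet of a handle lifts to a non-separating curve -/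
theorem CapD.ns_round (h : CapD o o' A j D) (hA : ∀ i, An o (A i))
    (hZ : ∀ i z, A i z ∈ ⋃ k, core (A k) → z.im = 0) (hM : IsPreconnected (univ : Set M))
    (hN : IsPreconnected (univ : Set N)) (hE : St o' E) {ρ : ℝ} (hρ : 0 < ρ) {i : ι}
    (h1 : D i true 0 ∈ E '' ball 0 ρ) (h2 : D i false 0 ∉ range E) {C : ℂ → N} (hC : An o' C)
    (hP : ∀ z, C z ∉ range fun p : ι × Bool => D p.1 p.2 0) {δ : ℝ} (hδ : 0 < δ)
    (e : ∀ z : ℂ, |z.im| ≤ δ → C z = E (ea ρ z)) : NS (jv j (⋃ k, core (A k)) ∘ C) := by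
  have h0 := h.col.col0
  set Z := ⋃ k, core (A k)
  set P := range fun p : ι × Bool => D p.1 p.2 0
  have hC' := h0.an_jv hC hP
  have oI : IsOpen (E '' ball 0 ρ) := hE.isOpenEmbedding.isOpenMap _ isOpen_ball
  have oO : IsOpen (E '' closedBall 0 ρ)ᶜ :=
    ((isCompact_closedBall 0 ρ).image (cont_of_pm hE.1)).isClosed.isOpen_compl
  have side : ∀ (O : Set N) (b : Bool) (s : ℝ), IsOpen O → IsPreconnected O → D i b 0 ∈ O →
      s ≠ 0 → (∀ r : ℝ, 0 < r → j (A i (s * r * I)) = D i b r) →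
      IsPreconnected (insert (A i 0) (jv j Z '' (O \ P))) := fun O b s a1 a2 a3 a4 a5 => by
    refine ((conn_diff_fin o' h.col.fin a1 a2).image _ (h0.cont_jv.mono fun y hy => hy.2)
      ).subset_closure (subset_insert _ _) (insert_subset ?_ subset_closure)
    have t1 : Tendsto (fun r : ℝ => A i (s * r * I)) (𝓝[>] 0) (𝓝 (A i 0)) :=
      (((cont_of_pm (hA i).1).comp (f := fun r : ℝ => (s * r * I : ℂ)) (by fun_prop)).tendsto' 0 _
        (by simp)).mono_left nhdsWithin_le_nhds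
    have t2 : ∀ᶠ r : ℝ in 𝓝 0, D i b r ∈ O := (((cont_of_pm (h.st i b).1).comp
      continuous_ofReal).tendsto' 0 _ (by simp)).eventually (a1.mem_nhds a3)
    refine mem_closure_of_tendsto t1 ?_
    filter_upwards [nhdsWithin_le_nhds t2, self_mem_nhdsWithin] with r r1 r2
    have r3 : A i (s * r * I) ∉ Z := fun k => (mem_Ioi.1 r2).ne' (by simpa [a4] using hZ i _ k)
    exact ⟨_, ⟨r1, by rw [← a5 r r2]; exact h0.j_not r3⟩, by rw [← a5 r r2, h0.jv_j r3]⟩
  have s1 := side _ true 1 oI ((convex_ball 0 ρ).isPreconnected.image _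
    (cont_of_pm hE.1).continuousOn) h1 one_ne_zero fun r hr => by simpa using h.up i 0 r hr
  have s2 := side _ false (-1) oO (hE.conn_out hN hρ)
    (fun k => h2 (image_subset_range _ _ k)) (by simp) fun r hr => by simpa using h.dn i 0 r hr
  have off : ∀ O : Set N, (∀ t : ℝ, E (ea ρ t) ∉ O) →
      insert (A i 0) (jv j Z '' (O \ P)) ⊆ univ \ core (jv j Z ∘ C) := by
    rintro O hO _ (rfl | ⟨y, hy, rfl⟩) <;> refine ⟨trivial, fun ⟨t, ht⟩ => ?_⟩
    · exact h0.jv_not (hP t) (by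
        rw [show jv j Z (C t) = A i 0 from ht]; exact mem_iUnion.2 ⟨i, mem_core rfl⟩)
    · have := congrArg j ht
      simp only [comp_apply] at this
      rw [h0.j_jv (hP t), h0.j_jv hy.2, e t (by simpa using hδ.le)] at this
      exact hO t (this ▸ hy.1)
  have ex : ∀ ε > (0 : ℝ), ∃ r > (0 : ℝ), r < ε ∧ r ≤ δ := fun ε hε =>
    ⟨min (ε / 2) δ, by positivity, (min_le_left _ _).trans_lt (by linarith), min_le_right _ _⟩
  rw [NS, compl_eq_univ_sdiff]
  refine hC'.conn_diff isOpen_univ hM (subset_univ _) (s1.union _ (mem_insert _ _) (mem_insert _ _) s2)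
    (union_subset (off _ fun t ⟨w, hw, k⟩ => ?_) (off _ fun t k => k ⟨_, ?_, rfl⟩))
    (fun ε hε => ?_) fun ε hε => ?_
  · rw [hE.2 k, mem_ball_zero_iff, norm_ea_real hρ] at hw
    exact lt_irrefl _ hw
  · rw [mem_closedBall_zero_iff, norm_ea_real hρ]
  · obtain ⟨r, r1, r2, r3⟩ := ex ε hε
    have i1 : ((r : ℂ) * I).im = r := by simp
    refine ⟨r * I, by rw [i1]; exact ⟨r1, r2⟩, .inl (.inr ⟨_, ⟨?_, hP _⟩, rfl⟩)⟩
    rw [e _ (by rw [i1, abs_of_pos r1]; exact r3)]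
    exact ⟨_, mem_ball_zero_iff.2 ((norm_ea_lt hρ).2 (i1.symm ▸ r1)), rfl⟩
  · obtain ⟨r, r1, r2, r3⟩ := ex ε hε
    have i1 : (-(r : ℂ) * I).im = -r := by simp
    refine ⟨-r * I, by rw [i1]; constructor <;> linarith, .inr (.inr ⟨_, ⟨?_, hP _⟩, rfl⟩)⟩
    rw [e _ (by rw [i1, abs_neg, abs_of_pos r1]; exact r3)]
    rintro ⟨w, hw, k⟩
    rw [hE.2 k, mem_closedBall_zero_iff] at hw
    exact ((lt_norm_ea hρ).2 (by rw [i1]; linarith)).not_ge hw

end

end Crest.Agent.X212.Prf6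
end
end

-- ▼ part X212/Prf6/Lant
section

/-!
# Row 212, PERF (helper6): the lantern
-/

set_option autoImplicit false
set_option linter.unusedSectionVars false
noncomputable section
open Set Filter Topology Function Complex Metric
open scoped ContDiff Manifold

namespace Crest.Agent.X212.Prf6

theorem int_ends {l : ℝ → ℝ} {a b : ℝ} {m n : ℤ} (h1 : ∀ r < a, l r = m) (h2 : ∀ r > b, l r = n) :
    ∀ r ∉ Icc a b, ∃ k : ℤ, l r = k := fun r hr => by
  rw [mem_Icc, not_and_or, not_le, not_le] at hr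
  exact hr.elim (fun h => ⟨m, h1 r h⟩) fun h => ⟨n, h2 r h⟩

theorem sh_int {l : ℝ → ℝ} {a b : ℝ} (h : ∀ r ∉ Icc a b, ∃ k : ℤ, l r = k) :
    ∀ z : ℂ, z.im ∉ Icc a b → ∃ n : ℤ, sh l z = z + n := fun z hz => by
  obtain ⟨n, hn⟩ := h _ hz
  exact ⟨n, by simp [hn]⟩

section
variable {N : Type*} [TopologicalSpace N] [ChartedSpace ℂ N] [IsManifold IC ∞ N] [T2Space N]
  {o : Or N} {E : ℂ → N}

theorem St.add (hE : St o E) (a : ℂ) : St o fun z => E (a + z) := by
  simpa using hE.affine one_ne_zero a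

/-- framed point pushing in the plane minus a closed set: the cocycle -/
theorem exists_push_coc {Γ : Type*} [CommGroup Γ] (hE : St o E) {Q : Set N} (hQ : IsClosed Q)
    (hS : IsPreconnected (E ⁻¹' Qᶜ)) (h0 : E 0 ∉ Q) {L : Equiv.Perm N → Γ}
    (Lm : ∀ f ∈ G o, ∀ g ∈ G o, Near f ({E 0} ∪ Q) → Near g ({E 0} ∪ Q) → L (f * g) = L f * L g)
    (L1 : ∀ φ, Iso o φ → NearI φ ({E 0} ∪ Q) → L (φ 1) = 1) :
    ∃ (F : ℂ → Equiv.Perm N) (c : ℂ → ℂ → Γ), Lev33.Coc (E ⁻¹' Qᶜ) c ∧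
      (∀ w, E w ∉ Q → F w ∈ G o ∧ Near (F w) Q ∧ F w (E 0) = E w) ∧
      ∀ Ψ, Iso o Ψ → NearI Ψ Q → ∀ y : ℝ → ℂ, ContDiff ℝ ∞ y → (∀ t, E (y t) ∉ Q) →
        (∀ᶠ z in 𝓝 0, ∀ t, Ψ t (E (y 0 + z)) = E (y t + z)) →
        Lev33.Prim univ (fun s t => c (y s) (y t)) fun t => L ((F (y t))⁻¹ * Ψ t * F (y 0)) := by
  have oS : IsOpen (E ⁻¹' Qᶜ) := hQ.isOpen_compl.preimage (cont_of_pm hE.1)
  have e2 : ∀ x, E x ∉ Q → ∃ R > (0 : ℝ), ∃ τ : ℂ → Equiv.Perm N,
      ContMDiff (IC.prod IC) IC ∞ (fun p : ℂ × N => τ p.1 p.2) ∧ (∀ w, τ w ∈ G o) ∧ τ 0 = 1 ∧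
      (∀ w z, ‖w‖ ≤ R → ‖z‖ ≤ R → τ w (E (x + z)) = E (x + w + z)) ∧
      (∀ᶠ y in 𝓝ˢ Q, ∀ w, τ w y = y) ∧ ∀ w, ‖w‖ ≤ R → E (x + w) ∉ Q := fun x hx => by
    obtain ⟨r, hr, hb⟩ := Metric.isOpen_iff.1 oS x hx
    have hb' : ∀ w : ℂ, ‖w‖ < r → E (x + w) ∉ Q := fun w hw => hb (by simpa using hw)
    obtain ⟨τ, t1, t2, t3, t4, t5⟩ := (hE.add x).exists_tau (R := r / 6) (by positivity)
    refine ⟨r / 6, by positivity, τ, t1, t2, t3, fun w z a b => by rw [t4 w z a b]; congr 1; ring,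
      mem_of_superset (((isCompact_closedBall 0 (5 * (r / 6))).image
        (cont_of_pm (hE.add x).1)).isClosed.isOpen_compl.mem_nhdsSet.2 ?_) fun y hy w => t5 w y hy,
      fun w hw => hb' w (by linarith)⟩
    rintro _ hy ⟨z, hz, rfl⟩
    exact hb' z (by rw [mem_closedBall_zero_iff] at hz; linarith) hy
  choose! R R0 τ T1 T2 T3 T4 T5 T6 using e2
  let Tn : Equiv.Perm N → ℂ → ℂ → Prop := fun f x y => ∀ᶠ z in 𝓝 0, f (E (x + z)) = E (y + z)
  have tm : ∀ f g x y w, Tn f y w → Tn g x y → Tn (f * g) x w := fun f g x y w a b =>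
    (a.and b).mono fun z hz => by rw [Equiv.Perm.mul_apply, hz.2, hz.1]
  have ti : ∀ f x y, Tn f x y → Tn f⁻¹ y x := fun f x y a =>
    a.mono fun z hz => by rw [Equiv.Perm.inv_eq_iff_eq, hz]
  have tt : ∀ x, E x ∉ Q → ∀ y, ‖y - x‖ ≤ R x → Tn (τ x (y - x)) x y := fun x hx y hy => by
    filter_upwards [closedBall_mem_nhds (0 : ℂ) (R0 x hx)] with z hz
    rw [T4 x hx _ z hy (mem_closedBall_zero_iff.1 hz), add_sub_cancel]
  have tq : ∀ x, E x ∉ Q → ∀ w, Near (τ x w) Q := fun x hx w => (T5 x hx).mono fun y hy => hy w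
  have e1 : ∀ w, E w ∉ Q → ∃ f ∈ G o, Near f Q ∧ Tn f 0 w := fun w hw => by
    have hl : Lev33.LCo (E ⁻¹' Qᶜ) fun w => ∃ f ∈ G o, Near f Q ∧ Tn f 0 w := by
      intro x hx
      filter_upwards [nhdsWithin_le_nhds (closedBall_mem_nhds x (R0 x hx))] with y hy
      have a := tt x hx y (mem_closedBall_iff_norm.1 hy)
      exact propext ⟨fun ⟨f, b, c, d⟩ => ⟨_, mul_mem (inv_mem (T2 x hx _)) b, (tq x hx _).inv.mul c,
        tm _ _ _ _ _ (ti _ _ _ a) d⟩, fun ⟨f, b, c, d⟩ => ⟨_, mul_mem (T2 x hx _) b,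
          (tq x hx _).mul c, tm _ _ _ _ _ a d⟩⟩
    rw [← hl.eq hS h0 hw]
    exact ⟨1, one_mem _, near_one _, Eventually.of_forall fun _ => rfl⟩
  choose! F F1 F2 F3 using e1
  have n0 : ∀ p : N → Prop, (∀ᶠ z in 𝓝 (0 : ℂ), p (E (0 + z))) → ∀ᶠ y in 𝓝ˢ {E 0}, p y :=
    fun p a => by
      rw [nhdsSet_singleton, ← (hE.1 0).map_nhds, eventually_map]
      simpa using a
  have sb : ∀ f ∈ G o, Near f Q → ∀ x y, E x ∉ Q → E y ∉ Q → Tn f x y →
      (F y)⁻¹ * f * F x ∈ G o ∧ Near ((F y)⁻¹ * f * F x) ({E 0} ∪ Q) := fun f a b x y hx hy d =>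
    ⟨mul_mem (mul_mem (inv_mem (F1 y hy)) a) (F1 x hx), Near.union (n0 _ (tm _ _ _ _ _
      (tm _ _ _ _ _ (ti _ _ _ (F3 y hy)) d) (F3 x hx))) (((F2 y hy).inv.mul b).mul (F2 x hx))⟩
  let c : ℂ → ℂ → Γ := fun x y => L ((F y)⁻¹ * τ x (y - x) * F x)
  have key : ∀ (V : Type) [NormedAddCommGroup V] [NormedSpace ℝ V] (Ψ : V → Equiv.Perm N),
      ContMDiff (𝓘(ℝ, V).prod IC) IC ∞ (fun p : V × N => Ψ p.1 p.2) → (∀ v, Ψ v ∈ G o) →
      (∀ᶠ y in 𝓝ˢ Q, ∀ v, Ψ v y = y) → ∀ (O : Set V) (y : V → ℂ) (w : ℂ), IsOpen O →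
      ContDiff ℝ ∞ y → E w ∉ Q → (∀ v ∈ O, E (y v) ∉ Q) →
      (∀ᶠ z in 𝓝 0, ∀ v ∈ O, Ψ v (E (w + z)) = E (y v + z)) → ∀ s ∈ O, ∀ᶠ t in 𝓝 s,
        L ((F (y t))⁻¹ * Ψ t * F w) = L ((F (y s))⁻¹ * Ψ s * F w) * c (y s) (y t) := by
    intro V _ _ Ψ a1 a2 a3 O y w hO hy hw a4 a5 s hs
    have nq : ∀ v, Near (Ψ v) Q := fun v => a3.mono fun y hy => hy v
    have hx := a4 s hs
    obtain ⟨r, hr, hb⟩ := Metric.eventually_nhds_iff_ball.1 ((hy.continuous.continuousAt.eventually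
      (closedBall_mem_nhds (y s) (R0 _ hx))).and (hO.mem_nhds hs))
    filter_upwards [ball_mem_nhds s hr] with t ht
    let γ : ℝ → V := fun u => s + Real.smoothTransition u • (t - s)
    have γ1 : ContDiff ℝ ∞ γ :=
      contDiff_const.add (Real.smoothTransition.contDiff.smul contDiff_const)
    have γ2 : ∀ u, γ u ∈ ball s r := fun u => (convex_ball s r).add_smul_sub_mem (mem_ball_self hr) ht
      ⟨Real.smoothTransition.nonneg u, Real.smoothTransition.le_one u⟩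
    have γ0 : γ 0 = s := by simp [γ]
    have γ3 : γ 1 = t := by simp [γ]
    have i1 : Iso o fun u => τ (y s) (y (γ u) - y s) :=
      iso_of_fam (T1 _ hx) (T2 _ hx) ((hy.comp γ1).sub contDiff_const) (by
        rw [γ0, sub_self, T3 _ hx])
    have i2 : Iso o fun u => Ψ (γ u) * (Ψ s)⁻¹ :=
      iso_of_fam (τ := fun v => Ψ v * (Ψ s)⁻¹) (a1.comp (contMDiff_fst.prodMk
        ((G_sm (inv_mem (a2 s))).comp contMDiff_snd))) (fun v => mul_mem (a2 v) (inv_mem (a2 s)))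
        γ1 (by rw [γ0, mul_inv_cancel])
    have i3 := (i1.inv.mul i2).conj (inv_mem (F1 _ hx))
    have n3 : NearI (fun u => (F (y s))⁻¹ * ((τ (y s) (y (γ u) - y s))⁻¹ * (Ψ (γ u) * (Ψ s)⁻¹)) *
        (F (y s))⁻¹⁻¹) ({E 0} ∪ Q) := by
      refine NearI.union (n0 _ ?_) (((F2 _ hx).inv.nearI.mul ((NearI.inv
        ((T5 _ hx).mono fun y hy _ => hy _)).mul (NearI.mul (a3.mono fun y hy _ => hy _)
          (nq s).inv.nearI))).mul (F2 _ hx).inv.inv.nearI)
      filter_upwards [F3 _ hx, a5, closedBall_mem_nhds (0 : ℂ) (R0 _ hx)] with z b1 b2 b3 u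
      simp only [Equiv.Perm.mul_apply, inv_inv]
      rw [Equiv.Perm.inv_eq_iff_eq, b1, Equiv.Perm.inv_eq_iff_eq, T4 _ hx _ z
        (mem_closedBall_iff_norm.1 (hb _ (γ2 u)).1) (mem_closedBall_zero_iff.1 b3), ← b2 s hs,
        show ∀ x, (Ψ s)⁻¹ (Ψ s x) = x from fun x => by simp, b2 _ (hb _ (γ2 u)).2, add_sub_cancel]
    have k1 := L1 _ i3 n3
    have k2 := i3.mem 1
    have k3 := n3.near 1
    simp only [γ3] at k1 k2 k3
    have s1 := sb _ (T2 _ hx (y t - y s)) (tq _ hx _) _ _ hx (a4 t (hb t ht).2)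
      (tt _ hx _ (mem_closedBall_iff_norm.1 (hb t ht).1))
    have s2 := sb _ (a2 s) (nq s) _ _ hw hx (a5.mono fun z hz => hz s hs)
    rw [mul_comm, ← mul_one (c _ _), ← k1, ← Lm _ s1.1 _ k2 s1.2 k3,
      ← Lm _ (mul_mem s1.1 k2) _ s2.1 (s1.2.mul k3) s2.2]
    congr 1; group
  refine ⟨F, c, Lev33.coc_of_loc fun x hx => ⟨ball x (R x), mem_nhdsWithin_of_mem_nhds
    (ball_mem_nhds x (R0 x hx)), c x, fun y hy => Eventually.filter_mono nhdsWithin_le_nhds ?_⟩,
    fun w hw => ⟨F1 w hw, F2 w hw, by simpa using (F3 w hw).self_of_nhds⟩,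
    fun Ψ a b y hy h1 h2 s _ => (key ℝ Ψ a.sm a.mem b univ y _ isOpen_univ hy (h1 0)
      (fun v _ => h1 v) (h2.mono fun z hz v _ => hz v) s trivial).filter_mono nhdsWithin_le_nhds⟩
  refine key ℂ (fun v => τ x (v - x)) ((T1 x hx).comp (f := fun p : ℂ × N => (p.1 - x, p.2))
    (((contDiff_id.sub contDiff_const).contMDiff.comp contMDiff_fst).prodMk contMDiff_snd))
    (fun v => T2 x hx _) ((T5 x hx).mono fun y hy _ => hy _) (ball x (R x)) id x isOpen_ball
    contDiff_id hx (fun v hv => by simpa using T6 x hx (v - x) (mem_ball_iff_norm.1 hv).le) ?_ y hy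
  filter_upwards [closedBall_mem_nhds (0 : ℂ) (R0 _ hx)] with z hz v hv
  rw [T4 x hx _ z (mem_ball_iff_norm.1 hv).le (mem_closedBall_zero_iff.1 hz), add_sub_cancel, id]

/-- the monodromy of a round circle -/
theorem round_mono {Γ : Type*} [CommGroup Γ] (hE : St o E) {Q Q' : Set N} (hQ : IsClosed Q)
    (hQ' : Q' ⊆ Q) (hE' : ∀ z, E z ∉ Q') {L : Equiv.Perm N → Γ} {t : Γ}
    (Lm : ∀ f ∈ G o, ∀ g ∈ G o, Near f ({E 0} ∪ Q) → Near g ({E 0} ∪ Q) → L (f * g) = L f * L g)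
    (LR : ∀ E', St o E' → (∀ z, E' z ∉ Q') → ∀ ρ > (0 : ℝ), (∀ z, ‖z‖ = ρ → E' z ∉ {E 0} ∪ Q) →
      (∃ z, ‖z‖ < ρ ∧ E' z ∈ {E 0} ∪ Q) → ∃ δ > (0 : ℝ), ∀ (l : ℝ → ℝ) (m n : ℤ), ContDiff ℝ ∞ l →
        (∀ r < -δ, l r = m) → (∀ r > δ, l r = n) → Near (tr (E' ∘ ea ρ) (sh l)) ({E 0} ∪ Q) ∧
          L (tr (E' ∘ ea ρ) (sh l)) = t ^ (n - m))
    (LB : ∀ E', St o E' → E' 0 = E 0 → (∀ z, E' z ∉ Q) →
      Near (tr E' (rot 1 (-1))) ({E 0} ∪ Q) ∧ L (tr E' (rot 1 (-1))) = t⁻¹)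
    {a : ℂ} {ρ : ℝ} (hρ : 0 < ρ) (h1 : ∀ z, ‖z‖ = ρ → E (a + z) ∉ Q)
    (h2 : ∃ z, ‖z‖ < ρ ∧ E (a + z) ∈ Q) {F : Equiv.Perm N} (F1 : F ∈ G o) (F2 : Near F Q)
    (F3 : F (E 0) = E (a + ρ)) : ∃ Ψ, Iso o Ψ ∧ NearI Ψ Q ∧
      (∀ᶠ z in 𝓝 0, ∀ u : ℝ, Ψ u (E (a + ρ + z)) = E (a + ea ρ u + z)) ∧
      L (F⁻¹ * Ψ 1 * F) = t⁻¹ := by
  have hC := (hE.add a).an_ea hρ
  set C := (fun z => E (a + z)) ∘ ea ρ with hCe
  obtain ⟨η₀, η0, hη⟩ := hC.tube hQ.isOpen_compl (by
    rintro _ ⟨u, rfl⟩; exact h1 _ (norm_ea_real hρ u))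
  set η := η₀ / 3 with hηe
  have η1 : 0 < η := by positivity
  have g := inv_mem F1
  have fq : ∀ y, F⁻¹ y ∈ Q ↔ y ∈ Q := fun y => ⟨fun h => by
    have := F2.fix h
    rw [show F (F⁻¹ y) = y by simp] at this
    rwa [this],
    fun h => by rw [F2.inv.fix h]; exact h⟩
  have e0 : ea ρ 0 = ρ := by simp [ea]
  have A1 : ∀ s : ℝ, |s| = η → ∃ δ > (0 : ℝ), ∀ (l : ℝ → ℝ) (m n : ℤ), ContDiff ℝ ∞ l →
      (∀ r < -δ, l r = m) → (∀ r > δ, l r = n) →
        Near (tr (⇑F⁻¹ ∘ C) (sh fun r => l (r - s))) ({E 0} ∪ Q) ∧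
          L (tr (⇑F⁻¹ ∘ C) (sh fun r => l (r - s))) = t ^ (n - m) := fun s hs => by
    have hρ' : 0 < ρ * Real.exp (-(2 * Real.pi * s)) := by positivity
    have e : (fun z => (⇑F⁻¹ ∘ C) (z + s * I)) =
        (⇑F⁻¹ ∘ fun z => E (a + z)) ∘ ea (ρ * Real.exp (-(2 * Real.pi * s))) := by
      ext z; simp only [hCe, comp_apply, ea_shift]
    simp only [(hC.comp g).tr_shift, e]
    refine LR _ ((hE.add a).comp g) (fun z k => hE' (a + z) ?_) _ hρ' (fun z hz => ?_) ?_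
    · have := F2.fix (hQ' k)
      simp only [comp_apply] at this k
      rw [← this] at k
      simpa using k
    · obtain ⟨v, rfl⟩ := ea_surj hρ' (w := z) (by rintro rfl; simp at hz; exact hρ'.ne' (by simp [hz]))
      have v0 : v.im = 0 := le_antisymm (not_lt.1 fun k => ((norm_ea_lt hρ').2 k).ne hz)
        (not_lt.1 fun k => ((lt_norm_ea hρ').2 k).ne' hz)
      rw [← ea_shift]
      rintro (k | k)
      · rw [mem_singleton_iff, comp_apply, Equiv.Perm.inv_eq_iff_eq, F3, ← e0] at k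
        have := hC.im_eq k
        simp [v0] at this
        simp [this] at hs
        linarith
      · exact hη (v + s * I) (by simp [v0, hs]; linarith) ((fq _).1 k)
    · obtain ⟨z, z1, z2⟩ := h2
      refine ⟨z, ?_, .inr ((fq _).2 z2)⟩
      rcases eq_or_ne z 0 with rfl | z0
      · simpa using hρ'
      · obtain ⟨v, rfl⟩ := ea_surj hρ z0
        have v1 := (norm_ea_lt hρ).1 z1
        have v2 : η₀ ≤ v.im := not_lt.1 fun k => hη v (by rwa [abs_of_pos v1]) z2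
        rw [show v = v - s * I + s * I by ring, ea_shift, norm_ea_lt hρ']
        simp
        linarith [le_abs_self s]
  obtain ⟨d₁, d1, D1⟩ := A1 (-η) (by rw [abs_neg, abs_of_pos η1])
  obtain ⟨d₂, d2, D2⟩ := A1 η (abs_of_pos η1)
  obtain ⟨d, d0, d3, d4, d5⟩ : ∃ d > (0 : ℝ), d ≤ d₁ ∧ d ≤ d₂ ∧ d ≤ η / 2 :=
    ⟨min d₁ (min d₂ (η / 2)), by positivity, min_le_left _ _,
      (min_le_right _ _).trans (min_le_left _ _), (min_le_right _ _).trans (min_le_right _ _)⟩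
  let l : ℝ → ℝ := fun r => Real.smoothTransition (r / d)
  have l0 : ContDiff ℝ ∞ l := Real.smoothTransition.contDiff.comp (by fun_prop)
  have l1 : ∀ r ≤ (0 : ℝ), l r = 0 := fun r hr =>
    Real.smoothTransition.zero_of_nonpos (div_nonpos_of_nonpos_of_nonneg hr d0.le)
  have l2 : ∀ r ≥ d, l r = 1 := fun r hr => Real.smoothTransition.one_of_one_le ((one_le_div d0).2 hr)
  obtain ⟨n1, k1⟩ := D1 l 0 1 l0 (fun r hr => by simpa using l1 r (by linarith))
    fun r hr => by simpa using l2 r (by linarith)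
  obtain ⟨n2, k2⟩ := D2 (fun r => -l r) 0 (-1) l0.neg (fun r hr => by simpa using l1 r (by linarith))
    fun r hr => by simpa using l2 r (by linarith)
  let β : ℝ → ℝ := fun r => l (r - -η) + -l (r - η)
  have β1 : ContDiff ℝ ∞ β := (l0.comp (by fun_prop)).add (l0.comp (by fun_prop)).neg
  have β2 : ∀ r, |r| < η / 2 → β r = 1 := fun r hr => by
    rw [abs_lt] at hr
    simp only [β]
    rw [l2 _ (by linarith), l1 _ (by linarith)]; simp
  have β3 : ∀ u : ℝ, ∀ r ∉ Icc (-η) (2 * η), ∃ n : ℤ, u * β r = n := fun u r hr => by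
    refine ⟨0, ?_⟩
    rw [mem_Icc, not_and_or, not_le, not_le] at hr
    simp only [β]
    rcases hr with k | k
    · rw [l1 _ (by linarith), l1 _ (by linarith)]; simp
    · rw [l2 _ (by linarith), l2 _ (by linarith)]; simp
  have i1 := hC.tr_iso (sh_iso (l := fun u r => u * β r) (contDiff_fst.mul (β1.comp contDiff_snd))
    (by simp)) (fun u => sh_per _) fun u => sh_int (β3 u)
  have m1 := tr_nearI hC.1 (fun u => hC.wd_sh fun r => u * β r) (isCompact_bx (-η) (2 * η))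
    (fun u => hC.out (sh_int (β3 u))) (Z := Q) (disjoint_left.2 (by
      rintro _ ⟨z, hz, rfl⟩
      exact hη z (abs_lt.2 ⟨by linarith [hz.2.1], by linarith [hz.2.2]⟩)))
  obtain ⟨κ, κ0, B, hB, b1, b2⟩ := exists_st ((hE.add (a + ρ)).1 0)
    (s := {z | E (a + ρ + z) ∉ Q}) ((cont_of_pm (hE.add _).1).continuousAt
      (hQ.isOpen_compl.mem_nhds (by simpa using h1 ρ (by simp [hρ.le]))))
  have b3 : ∀ z, B z ∉ Q := fun z => by
    obtain ⟨w, hw, e⟩ := b1 ⟨z, rfl⟩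
    exact e ▸ hw
  have r0 : ∀ u : ℝ, ∀ z ∉ closedBall (0 : ℂ) 1, rot 1 (-u) z = z := fun u z hz =>
    rot_out one_pos _ (not_le.1 (mt mem_closedBall_zero_iff.2 hz)).le
  have i2 := hB.tr_iso ((rot_iso one_pos).reparam contDiff_neg neg_zero) (isCompact_closedBall 0 1) r0
  have m2 := hB.tr_nearI (isCompact_closedBall 0 1) r0 (Z := Q) (disjoint_left.2 (by
    rintro _ ⟨z, -, rfl⟩; exact b3 z))
  refine ⟨_, i1.mul i2, m1.mul m2, ?_, ?_⟩
  · obtain ⟨r, r1, r2⟩ := Metric.isOpen_iff.1 (isOpenMap_of_pm (an_ea hρ).1 {z | |z.im| < η / 2}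
      (isOpen_lt (by fun_prop) continuous_const)) ρ ⟨0, by simpa using η1, e0⟩
    filter_upwards [ball_mem_nhds (0 : ℂ) r1, ball_mem_nhds (0 : ℂ) (half_pos κ0)] with z z1 z2 u
    rw [mem_ball_zero_iff] at z1 z2
    have k0 : (κ : ℂ) ≠ 0 := ofReal_ne_zero.2 κ0.ne'
    have b4 : ∀ w : ℂ, ‖w‖ ≤ 1 / 2 → B w = E (a + ρ + κ * w) := fun w hw =>
      b2 w ((abs_re_le_norm w).trans (by linarith)) ((abs_im_le_norm w).trans (by linarith))
    have z3 : ‖z / κ‖ ≤ 1 / 2 := by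
      rw [norm_div, norm_real, Real.norm_of_nonneg κ0.le, div_le_iff₀ κ0]; linarith
    obtain ⟨v, v1, v2⟩ := r2 (show ρ + z * exp (2 * Real.pi * I * (-u : ℝ)) ∈ ball (ρ : ℂ) r by
      simpa only [mem_ball_iff_norm, add_sub_cancel_left, norm_mul, norm_exp_2pi, mul_one] using z1)
    rw [Equiv.Perm.mul_apply, ← mul_div_cancel₀ z k0, ← b4 _ z3, hB.apply, b4 _ (by rwa [norm_rot]),
      rot_in one_pos _ z3, ← mul_assoc, mul_div_cancel₀ z k0, add_assoc, ← v2]
    refine ((hC.wd_sh _).apply v).trans (congrArg E ?_)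
    have : exp (2 * Real.pi * I * (-u : ℝ)) * exp (2 * Real.pi * I * u) = 1 := by
      rw [← exp_add]; simp
    rw [sh_apply, β2 _ v1, mul_one, add_assoc, show ea ρ (v + u) = ea ρ v * exp (2 * Real.pi * I * u) by
      rw [ea, ea, mul_add, exp_add, mul_assoc (ρ : ℂ)], v2, add_mul, mul_assoc z, this, mul_one, ea]
  · obtain ⟨n3, k3⟩ := LB _ (hB.comp g) (by
      rw [comp_apply, Equiv.Perm.inv_eq_iff_eq, F3, b2 0 (by simp) (by simp)]; simp)
      fun z k => b3 z ((fq _).1 k)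
    have hC' := hC.comp g
    have g1 := hC'.sh_mem (l := fun r => l (r - -η)) (l0.comp (by fun_prop)) (int_ends (m := 0) (n := 1)
      (a := -η) (b := η) (fun r hr => by simpa using l1 _ (by linarith))
      fun r hr => by simpa using l2 _ (by linarith))
    have g2 := hC'.sh_mem (l := fun r => -l (r - η)) (l0.comp (by fun_prop)).neg (int_ends (m := 0)
      (n := -1) (a := η) (b := 2 * η) (fun r hr => by simpa using l1 _ (by linarith))
      fun r hr => by simpa using l2 _ (by linarith))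
    have g3 := (hB.comp g).tr_mem (rot_mem one_pos (-1)) (isCompact_closedBall 0 1) (r0 1)
    have e : F⁻¹ * (tr C (sh fun r => 1 * β r) * tr B (rot 1 (-1))) * F =
        tr (⇑F⁻¹ ∘ C) (sh fun r => l (r - -η)) * tr (⇑F⁻¹ ∘ C) (sh fun r => -l (r - η)) *
          tr (⇑F⁻¹ ∘ B) (rot 1 (-1)) := by
      rw [← tr_mul (hC'.wd_sh _) (hC'.wd_sh _), ← sh_add, tr_conj (hC.wd_sh _), tr_conj (hB.wd _)]
      simp only [one_mul, β]
      group
    rw [e, Lm _ (mul_mem g1 g2) _ g3 (n1.mul n2) n3, Lm _ g1 _ g2 n1 n2, k1, k2, k3]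
    simp

/-- the lantern relation in a plane chart -/
theorem lant_core {Γ : Type*} [CommGroup Γ] (hE : St o E) {Q Q' : Set N} (hQ : Q.Finite)
    (hQ' : Q' ⊆ Q) (hE' : ∀ z, E z ∉ Q') (hz : ∀ z, E z ∈ Q ↔ z = 1 ∨ z = 3)
    {L : Equiv.Perm N → Γ} {t : Γ}
    (Lm : ∀ f ∈ G o, ∀ g ∈ G o, Near f ({E 0} ∪ Q) → Near g ({E 0} ∪ Q) → L (f * g) = L f * L g)
    (L1 : ∀ φ, Iso o φ → NearI φ ({E 0} ∪ Q) → L (φ 1) = 1)
    (LR : ∀ E', St o E' → (∀ z, E' z ∉ Q') → ∀ ρ > (0 : ℝ), (∀ z, ‖z‖ = ρ → E' z ∉ {E 0} ∪ Q) →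
      (∃ z, ‖z‖ < ρ ∧ E' z ∈ {E 0} ∪ Q) → ∃ δ > (0 : ℝ), ∀ (l : ℝ → ℝ) (m n : ℤ), ContDiff ℝ ∞ l →
        (∀ r < -δ, l r = m) → (∀ r > δ, l r = n) → Near (tr (E' ∘ ea ρ) (sh l)) ({E 0} ∪ Q) ∧
          L (tr (E' ∘ ea ρ) (sh l)) = t ^ (n - m))
    (LB : ∀ E', St o E' → E' 0 = E 0 → (∀ z, E' z ∉ Q) →
      Near (tr E' (rot 1 (-1))) ({E 0} ∪ Q) ∧ L (tr E' (rot 1 (-1))) = t⁻¹) : t = 1 := by
  have hS : IsPreconnected (E ⁻¹' Qᶜ) := by
    simpa only [← compl_eq_univ_sdiff, preimage_compl] using conn_diff_fin oC (hQ.preimage hE.2.injOn) isOpen_univ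
      isPreconnected_univ
  obtain ⟨F, c, hc, hF, hP⟩ := exists_push_coc hE hQ.isClosed hS (by simp [hz]) Lm L1
  have st : ∀ s : ℝ, s ≠ 0 → ∃ b, Lev33.Prim (E ⁻¹' Qᶜ ∩ {z | 0 ≤ s * z.im}) c b := fun s hs => by
    have s2 : 0 < s * s := mul_self_pos.2 hs
    refine (hc.mono inter_subset_left).prim_star (x0 := s * I) (mem_inter ?_ (by simpa using s2.le))
      fun z hz' a b ha hb hab => mem_inter (fun k => ?_) ?_
    · rw [mem_preimage, mem_compl_iff, hz]
      rintro (k | k) <;> exact hs (by simpa using congrArg im k)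
    · have k1 : a * s + b * z.im = 0 := by
        rcases (hz _).1 k with e | e <;> simpa using congrArg im e
      have k2 : a = 0 := by
        have := mul_nonneg hb (show 0 ≤ s * z.im from hz'.2)
        have : a * (s * s) ≤ 0 := by nlinarith [congrArg (s * ·) k1]
        exact le_antisymm (by nlinarith) ha
      rw [k2, zero_add] at hab
      rw [k2, hab] at k
      exact hz'.1 (by simpa using k)
    · have := mul_nonneg hb (show 0 ≤ s * z.im from hz'.2)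
      have := mul_nonneg ha s2.le
      simp; nlinarith
  obtain ⟨p, hp⟩ := st 1 one_ne_zero
  obtain ⟨q, hq⟩ := st (-1) (by simp)
  have rd : ∀ (a ρ : ℝ), 0 < ρ → (∀ z : ℂ, ‖z‖ = ρ → E (a + z) ∉ Q) →
      (∃ z : ℂ, ‖z‖ < ρ ∧ E (a + z) ∈ Q) →
      t⁻¹ = p (a - ρ) * (q (a - ρ))⁻¹ * (p (a + ρ) * (q (a + ρ))⁻¹)⁻¹ := fun a ρ hρ h1 h2 => by
    have e0 : ea ρ (0 : ℝ) = ρ := by simp [ea]
    have e1 : ea ρ (1 : ℝ) = ρ := by simp [ea]
    have e2 : ea ρ (1 / 2 : ℝ) = -ρ := by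
      rw [ea, show (2 * Real.pi * I * (1 / 2 : ℝ) : ℂ) = Real.pi * I by push_cast; ring, exp_pi_mul_I]
      simp
    have e3 : ∀ u : ℝ, (a + ea ρ u).im = ρ * Real.sin (2 * Real.pi * u) := fun u => by
      rw [ea, show (2 * Real.pi * I * u : ℂ) = (2 * Real.pi * u : ℝ) * I by push_cast; ring]
      simp only [add_im, ofReal_im, zero_add, im_ofReal_mul, exp_ofReal_mul_I_im]
    obtain ⟨f1, f2, f3⟩ := hF (a + ρ) (h1 ρ (by simp [hρ.le]))
    obtain ⟨Ψ, a1, a2, a3, a4⟩ := round_mono hE hQ.isClosed hQ' hE' Lm LR LB hρ h1 h2 f1 f2 f3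
    have y1 : ContDiff ℝ ∞ fun u : ℝ => a + ea ρ u := contDiff_const.add
      ((contMDiff_iff_contDiff.1 (sm_of_pm (an_ea hρ).1)).comp ofRealCLM.contDiff)
    have y2 : ∀ u : ℝ, E (a + ea ρ u) ∉ Q := fun u => h1 _ (norm_ea_real hρ u)
    have b := hP Ψ a1 a2 _ y1 y2 (by simpa only [e0] using a3)
    have hpi := Real.pi_pos
    have u1 := (hp.comp y1.continuous.continuousOn (T := Icc 0 (1 / 2)) fun u hu => ⟨y2 u, by
      rw [mem_ofPred_eq, e3, one_mul]
      exact mul_nonneg hρ.le (Real.sin_nonneg_of_nonneg_of_le_pi (by nlinarith [hu.1])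
        (by nlinarith [hu.2]))⟩).uniq (b.mono (subset_univ _)) isPreconnected_Icc (x := 0) (y := 1 / 2)
      (by simp) (by simp)
    have u2 := (hq.comp y1.continuous.continuousOn (T := Icc (1 / 2) 1) fun u hu => ⟨y2 u, by
      rw [mem_ofPred_eq, e3, ← Real.sin_sub_two_pi, neg_one_mul, ← mul_neg, ← Real.sin_neg]
      exact mul_nonneg hρ.le (Real.sin_nonneg_of_nonneg_of_le_pi (by nlinarith [hu.2])
        (by nlinarith [hu.1]))⟩).uniq (b.mono (subset_univ _)) isPreconnected_Icc (x := 1 / 2) (y := 1)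
      (by norm_num) (by norm_num)
    have l1 := L1 _ iso_one (near_one _).nearI
    simp only [e0, e1, e2, a4, a1.zero, mul_one, inv_mul_cancel, l1, ← sub_eq_add_neg] at u1 u2
    rw [u2, u1]
    simp only [mul_inv_rev, inv_inv, one_mul]
    ac_rfl
  have c1 : ∀ (a ρ : ℝ), |1 - a| ≠ ρ → |3 - a| ≠ ρ → ∀ z : ℂ, ‖z‖ = ρ → E (a + z) ∉ Q := by
    intro a ρ h1 h2 z h k
    rcases (hz _).1 k with e | e
    · rw [← eq_sub_iff_add_eq'] at e
      exact h1 (by rw [← h, e]; norm_cast)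
    · rw [← eq_sub_iff_add_eq'] at e
      exact h2 (by rw [← h, e]; norm_cast)
  have r1 := rd 1 1 one_pos (c1 _ _ (by norm_num) (by norm_num)) ⟨0, by simp, by simp [hz]⟩
  have r2 := rd 3 1 one_pos (c1 _ _ (by norm_num) (by norm_num)) ⟨0, by simp, by simp [hz]⟩
  have r3 := rd 2 2 two_pos (c1 _ _ (by norm_num) (by norm_num)) ⟨1, by simp, by norm_num [hz]⟩
  norm_num at r1 r2 r3
  have : t⁻¹ * t⁻¹ = t⁻¹ * (p 2 * (p 2)⁻¹ * (q 2 * (q 2)⁻¹)) := by
    nth_rw 1 [r1]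
    nth_rw 1 [r2]
    rw [r3]
    simp only [mul_comm, mul_left_comm, mul_assoc]
  simpa using this

end

theorem lant (hc : Cap) : Lant := by
  intro X hG hJ B0 hB0 nB0
  have hX := hG.conn
  obtain ⟨A, hA, hd, h3⟩ := hG
  obtain ⟨Y, j, D, h⟩ := hc X (Fin 3) A hA hd
  have hY := h.col.conn_down h3
  have h0 := h.col.col0
  set Z := ⋃ k, core (A k)
  set P := range fun p : Fin 3 × Bool => D p.1 p.2 0 with hPe
  have hZ : ∀ i z, A i z ∈ Z → z.im = 0 := fun i z hz => by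
    obtain ⟨k, hk⟩ := mem_iUnion.1 hz
    rcases eq_or_ne i k with rfl | e
    · exact (hA i).mem_core.1 hk
    · exact (disjoint_left.1 (hd i k e) ⟨z, rfl⟩ (core_subset _ hk)).elim
  have inj : ∀ p q : Fin 3 × Bool, D p.1 p.2 0 = D q.1 q.2 0 → p = q := fun p q e =>
    by_contra fun k => disjoint_left.1 (h.dis p q k) ⟨0, rfl⟩ ⟨0, e.symm⟩
  have mv : ∀ (p : Fin 3 × Bool) (y : Y.R), (∀ q, q ≠ p → y ≠ D q.1 q.2 0) → ∃ g ∈ G Y.o,
      g y = D p.1 p.2 0 ∧ ∀ q, q ≠ p → g (D q.1 q.2 0) = D q.1 q.2 0 := fun p y hy => by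
    have hf : ((fun q : Fin 3 × Bool => D q.1 q.2 0) '' {p}ᶜ).Finite := toFinite _
    obtain ⟨φ, a, b, c⟩ := hom_gen Y.o hf.isClosed.isOpen_compl (by
      rw [compl_eq_univ_sdiff]; exact conn_diff_fin Y.o hf isOpen_univ hY) (x := y)
      (y := D p.1 p.2 0) (fun ⟨q, k, e⟩ => hy q k e.symm) fun ⟨q, k, e⟩ => k (inj _ _ e)
    exact ⟨_, a.mem 1, c, fun q k => (b.near 1).fix (by rw [compl_compl]; exact ⟨q, k, rfl⟩)⟩
  obtain ⟨E, hE, e0, e1, e2, e3⟩ : ∃ E, St Y.o E ∧ E 0 = D 0 true 0 ∧ E 1 = D 1 true 0 ∧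
      E 3 = D 2 true 0 ∧ ∀ i z, E z ≠ D i false 0 := by
    have a0 := h.st 0 true
    have b0 : ∀ z, ∀ q : Fin 3 × Bool, q ≠ (0, true) → D 0 true z ≠ D q.1 q.2 0 := fun z q k e =>
      disjoint_left.1 (h.dis q (0, true) k) ⟨0, rfl⟩ ⟨z, e⟩
    obtain ⟨g, g1, g2, g3⟩ := mv (1, true) (D 0 true 1) fun q _ => by
      rcases eq_or_ne q (0, true) with rfl | k
      · exact fun e => one_ne_zero (a0.2 e)
      · exact b0 _ q k
    have b1 : ∀ z, ∀ q : Fin 3 × Bool, q ≠ (0, true) → q ≠ (1, true) →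
        g (D 0 true z) ≠ D q.1 q.2 0 := fun z q k k' e => b0 z q k (g.injective (e.trans (g3 q k').symm))
    obtain ⟨f, f1, f2, f3⟩ := mv (2, true) (g (D 0 true 3)) fun q _ => by
      rcases eq_or_ne q (0, true) with rfl | k
      · exact fun e => by simpa using a0.2 (g.injective (e.trans (g3 _ (by simp)).symm))
      rcases eq_or_ne q (1, true) with rfl | k'
      · exact fun e => by simpa using a0.2 (g.injective (e.trans g2.symm))
      · exact b1 _ q k k'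
    refine ⟨_, (a0.comp g1).comp f1, ?_, ?_, f2, fun i z e => b1 z (i, false) (by simp) (by simp)
      (f.injective (e.trans (f3 (i, false) (by simp)).symm))⟩
    · exact (congrArg f (g3 (0, true) (by simp))).trans (f3 (0, true) (by simp))
    · exact (congrArg f g2).trans (f3 (1, true) (by simp))
  have pe : {E 0} ∪ P \ {E 0} = P := by
    rw [union_sdiff_self, union_eq_right, singleton_subset_iff, e0]; exact ⟨(0, true), rfl⟩
  have LC : ∀ C, An Y.o C → (∀ z, C z ∉ P) → NS (jv j Z ∘ C) → ∀ (l : ℝ → ℝ) (a b : ℝ) (m n : ℤ),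
      ContDiff ℝ ∞ l → (∀ r < a, l r = m) → (∀ r > b, l r = n) → Near (tr C (sh l)) P ∧
        cls X.o (lf j Z (tr C (sh l))) = cls X.o (tw B0) ^ (n - m) := by
    intro C c1 c2 c3 l a b m n l1 l2 l3
    refine ⟨tr_near c1.1 (c1.wd_sh _) (isCompact_bx a b) (c1.out (sh_int (int_ends l2 l3)))
      (disjoint_left.2 ?_), ?_⟩
    · rintro _ ⟨z, -, rfl⟩; exact c2 z
    · rw [h0.lf_tr c2 (c1.wd_sh _), (h0.an_jv c1 c2).cls_sh l1 l2 l3,
        (cls_eq_iff (h0.an_jv c1 c2).tw_mem hB0.tw_mem).2 (hJ _ _ (h0.an_jv c1 c2) hB0 c3 nB0)]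
  refine (cls_eq_one hB0.tw_mem).1 (lant_core hE (Q := P \ {E 0}) (Q' := range fun i => D i false 0)
    (h.col.fin.subset sdiff_subset) ?_ (fun z ⟨i, e⟩ => e3 i z e.symm) (fun z => ⟨?_, ?_⟩)
    (L := fun f => cls X.o (lf j Z f)) ?_ ?_ ?_ ?_)
  · rintro _ ⟨i, rfl⟩
    exact ⟨⟨(i, false), rfl⟩, fun e => e3 i 0 e.symm⟩
  · rintro ⟨⟨⟨i, b⟩, e⟩, k⟩
    cases b
    · exact (e3 i z e.symm).elim
    · fin_cases i
      · exact (k (e.symm.trans e0.symm)).elim
      · exact .inl (hE.2 (e.symm.trans e1.symm))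
      · exact .inr (hE.2 (e.symm.trans e2.symm))
  · rintro (rfl | rfl)
    · exact ⟨⟨(1, true), e1.symm⟩, fun e => one_ne_zero (hE.2 e)⟩
    · exact ⟨⟨(2, true), e2.symm⟩, fun e => by simpa using hE.2 e⟩
  · intro f a g b c d
    rw [pe] at c d
    rw [h0.lf_mul (fun _ => c.fix) fun _ => d.fix, cls_mul (h0.lf_mem a c) (h0.lf_mem b d)]
  · intro φ a b
    rw [pe] at b
    exact cls_K (h0.lf_iso a b).one_mem
  · rw [pe]
    rintro E' a b ρ hρ c ⟨z, z1, ⟨i, s⟩, z2⟩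
    obtain ⟨δ, hδ, C, c1, c2, -, c3⟩ := (a.an_ea hρ).thin h.col.fin.isClosed.isOpen_compl (by
      rintro _ ⟨u, rfl⟩; exact c _ (norm_ea_real hρ u))
    refine ⟨δ, hδ, fun l m n l1 l2 l3 => ?_⟩
    rw [← tr_sh_congr c1 (a.an_ea hρ) (int_ends l2 l3) fun z hz => c3 z (abs_le.2 hz)]
    cases s
    · exact (b z ⟨i, z2⟩).elim
    · exact LC C c1 (fun z => c2 ⟨z, rfl⟩) (h.ns_round hA hZ hX hY a hρ
        ⟨z, mem_ball_zero_iff.2 z1, z2.symm⟩ (fun ⟨w, e⟩ => b w ⟨i, e.symm⟩) c1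
        (fun z => c2 ⟨z, rfl⟩) hδ c3) l _ _ m n l1 l2 l3
  · rw [pe]
    intro E' a b c
    have d : ∀ z, (E' ∘ ea 1) z ∉ P := fun z k => c _ ⟨k, fun e => ea_ne one_pos z (a.2 (e.trans b.symm))⟩
    obtain ⟨u, v, l2, l3⟩ := rl_ends one_pos one_pos (-1)
    rw [a.tr_rot one_pos]
    simpa using LC _ (a.an_ea one_pos) d (h.ns_round hA hZ hX hY a one_pos (i := 0)
      ⟨0, by simp, b.trans e0⟩ (fun ⟨w, e⟩ => c w ⟨⟨(0, false), e.symm⟩, fun k => e3 0 0
        (k.symm.trans e)⟩) (a.an_ea one_pos) d one_pos fun _ _ => rfl) _ u v 0 (-1) (rl_cd _ _ _)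
      (by simpa using l2) (by simpa using l3)

end Crest.Agent.X212.Prf6
end
end

-- ▼ part X212/Mcg32/Surg
section

/-!
# Row 212, PERF (helper32): surgery at two crossings that are adjacent on the core of `A`
-/

set_option autoImplicit false
set_option linter.unusedSectionVars false
noncomputable section
open Set Filter Topology Function Complex
open scoped ContDiff Manifold

namespace Crest.Agent.X212.Mcg32
open Prf6

section
variable {M : Type*} [TopologicalSpace M] [ChartedSpace ℂ M] {o : Or M} {U : Set M} {A B : ℂ → M}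
  {n : ℕ} {δ : ℝ} {t θ ε : Fin n → ℝ}

theorem nf_adj (h : Nf o U A B n δ t θ ε) (hn : 2 ≤ n) : ∃ P Q : Fin n, ∃ k : ℤ, P ≠ Q ∧
    θ P + 2 * δ ≤ θ Q + k ∧ θ Q + k ≤ θ P + 1 - 2 * δ ∧ ∀ j, ∀ m : ℤ, θ P - 2 * δ < θ j + m →
      θ j + m < θ Q + k + 2 * δ → (j = P ∧ m = 0) ∨ (j = Q ∧ m = k) := by
  set P : Fin n := ⟨0, by omega⟩
  obtain ⟨Q, hQ, hm⟩ := exists_min_image ({P}ᶜ : Set (Fin n)) (fun j => Int.fract (θ j - θ P))
    (toFinite _) ⟨⟨1, by omega⟩, fun e => by simpa [P] using congrArg Fin.val e⟩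
  have hδ := h.pos
  have l1 := Int.floor_add_fract (θ Q - θ P)
  have l2 := Int.fract_nonneg (θ Q - θ P)
  have l3 := Int.fract_lt_one (θ Q - θ P)
  refine ⟨P, Q, -⌊θ Q - θ P⌋, fun e => hQ e.symm, ?_, ?_, fun j m h1 h2 => ?_⟩
  · by_contra hh
    push_cast at hh
    exact hQ (h.sepθ Q P ⌊θ Q - θ P⌋ (abs_lt.2 ⟨by linarith, by linarith⟩)).1
  · by_contra hh
    push_cast at hh
    refine hQ (h.sepθ Q P (⌊θ Q - θ P⌋ + 1) (abs_lt.2 ⟨?_, ?_⟩)).1 <;> push_cast <;> linarith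
  push_cast at h2
  by_cases h3 : θ j + m < θ P + 2 * δ
  · have := h.sepθ j P (-m) (abs_lt.2 ⟨by push_cast; linarith, by push_cast; linarith⟩)
    exact Or.inl ⟨this.1, by omega⟩
  by_cases h4 : θ Q - ⌊θ Q - θ P⌋ - 2 * δ < θ j + m
  · have := h.sepθ j Q (-⌊θ Q - θ P⌋ - m) (abs_lt.2 ⟨by push_cast; linarith, by push_cast; linarith⟩)
    exact Or.inr ⟨this.1, by omega⟩
  exfalso
  have h5 : Int.fract (θ j - θ P) = θ j + m - θ P :=
    Int.fract_eq_iff.2 ⟨by linarith, by linarith, -m, by push_cast; ring⟩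
  have h6 : j ≠ P := by
    rintro rfl
    exact not_int (m := m) (k := 0) (by push_cast; linarith) (by push_cast; linarith)
  have := hm j h6
  simp only [h5] at this
  linarith

end

/-- `one_cv` for a curve that is `A ∘ α` near the point, with the transverse direction `d` -/
theorem cut_conn (tub : Tub) (X : Sf) {U S : Set X.R} {γ : ℝ → X.R} (hγ : Cv γ) (hU : IsOpen U)
    (hc : IsPreconnected U) (hr : range γ ⊆ U) {A : ℂ → X.R} (hA : An X.o A) {α : ℝ → ℂ}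
    (hα : ContDiff ℝ ∞ α) {y L : ℝ} (hL : 0 < L) (loc : ∀ᶠ u in 𝓝 (y / L), γ u = A (α (L * u)))
    {d : ℂ} (hd : (deriv α y).re * d.im - d.re * (deriv α y).im ≠ 0)
    (hS : IsPreconnected S) (hSU : S ⊆ U \ range γ)
    (hv : ∀ᶠ v : ℝ in 𝓝[≠] 0, A (α y + v * d) ∈ S) : IsPreconnected (U \ range γ) := by
  set p : ℂ → ℂ := fun z => α (y + L * z.re) + z.im * d with hp
  have c1 : ContDiff ℝ ∞ fun z : ℂ => y + L * z.re :=
    contDiff_const.add (contDiff_const.mul reCLM.contDiff)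
  have cp : ContDiff ℝ ∞ p :=
    (hα.comp c1).add ((ofRealCLM.contDiff.comp imCLM.contDiff).mul contDiff_const)
  have d1 : HasFDerivAt (fun z : ℂ => y + L * z.re) (L • reCLM) 0 :=
    (reCLM.hasFDerivAt.const_smul L).const_add y
  have d2 : HasDerivAt α (deriv α y) (y + L * (0 : ℂ).re) := by
    simpa using (hα.differentiable (by simp) y).hasDerivAt
  have d3 := (d2.hasFDerivAt.comp 0 d1).add ((ofRealCLM.comp imCLM).hasFDerivAt.mul_const d)
  have dp : HasFDerivAt p _ 0 := d3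
  refine one_cv tub X hγ hU hc hr (t := y / L) (e := A ∘ p) (Cyl58.ld_comp (an_ld hA _)
    (ld_plane cp ?_)) ?_ hS hSU (by simpa [hp] using hv)
  · rw [dp.fderiv, det_c]
    simp only [add_apply, ContinuousLinearMap.comp_apply]
    simp
    intro e
    apply hd
    have : L * ((deriv α y).re * d.im - d.re * (deriv α y).im) = 0 := by linarith
    exact (mul_eq_zero.1 this).resolve_left hL.ne'
  · have : Tendsto (fun u : ℝ => y / L + u) (𝓝 0) (𝓝 (y / L)) := by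
      simpa using (continuous_const_add (y / L)).tendsto 0
    filter_upwards [this loc] with u hu
    have hu' : γ (y / L + u) = A (α (L * (y / L + u))) := hu
    rw [hu', mul_add, mul_div_cancel₀ _ hL.ne']
    simp [hp]

/-- the conclusion of `Surg` -/
def Out {M : Type*} [TopologicalSpace M] [ChartedSpace ℂ M] (U : Set M) (A B : ℂ → M) (n : ℕ) : Prop :=
  ∃ γ, Cv γ ∧ range γ ⊆ U ∧ IsPreconnected (U \ range γ) ∧
    (∃ n' < n, ∃ s : Fin n' → ℝ, (∀ i j, ∀ m : ℤ, s i = s j + m → i = j) ∧ (∀ j, Tv A γ (s j)) ∧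
      ∀ u, γ u ∈ core A → ∃ j, ∃ m : ℤ, u = s j + m) ∧
    (Disjoint (range γ) (core B) ∨ ∃ s, Tv B γ s ∧ ∀ u, γ u ∈ core B → ∃ m : ℤ, u = s + m)

variable {X : Sf} {U : Set X.R} {A B : ℂ → X.R} {n : ℕ} {δ : ℝ} {t θ ε : Fin n → ℝ}
  {P Q : Fin n} {k : ℤ}

/-- same sign -/
theorem same (tub : Tub) (hU : IsOpen U) (h : Nf X.o U A B n δ t θ ε)
    (hc : IsPreconnected (U \ core B)) (hPQ : P ≠ Q) (g1 : θ P + 2 * δ ≤ θ Q + k)
    (g2 : θ Q + k ≤ θ P + 1 - 2 * δ) (adj : ∀ j, ∀ m : ℤ, θ P - 2 * δ < θ j + m →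
      θ j + m < θ Q + k + 2 * δ → (j = P ∧ m = 0) ∨ (j = Q ∧ m = k)) (he : ε Q = ε P) :
    Out U A B n := by
  have hδ := h.pos
  have ee : ε P * ε P = 1 := by rcases h.sgn P with e | e <;> simp [e]
  have hs : |ε P * (δ / 2)| = δ / 2 := by rw [nf_abs h, abs_of_pos (by linarith)]
  set x := θ P - δ / 2 with hx
  set x' := θ Q + k - δ / 2 with hx'
  have hf : ContDiff ℝ ∞ fun y : ℝ => ε P * y := by fun_prop
  obtain ⟨γ, L, hL, hγ, hr, loc, ψ, dec⟩ := crv h hPQ 0 k (s := ε P * (δ / 2)) (a := δ / 4)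
    (b := δ / 2) (c := 0) (f := fun y => ε P * y) (x := x) (x' := x')
    (by rw [← mul_assoc, ee]; simp [hx]) (by rw [he, ← mul_assoc, ee]; simp [hx'])
    (fun j m hj => by
      rw [uIcc_of_le (by linarith)] at hj
      have := abs_le.1 ((nf_abs h j _).trans hs).le
      exact adj j m (by linarith [hj.1]) (by linarith [hj.2]))
    (by linarith) (by rw [abs_lt]; constructor <;> linarith) (by linarith) le_rfl (by linarith)
    (by linarith) (by linarith) hf (fun y _ => by rw [he, add_zero]) (fun y _ => by rw [sub_zero])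
    (fun y hy => by rw [nf_abs h]; linarith)
  set α := al x x' (δ / 4) fun y => ε P * y with hα
  have ha : 0 < δ / 4 := by linarith
  have hΔ : 0 < x' - x := by linarith
  obtain ⟨y0, -, hy0⟩ : δ / 2 / (x' - x) ∈ sg (δ / 4) '' Icc (-(δ / 4)) (δ / 4) := by
    refine intermediate_value_Icc (by linarith) (sg_cd _).continuous.continuousOn ?_
    rw [(sg_zero ha).2 le_rfl, (sg_one ha).2 le_rfl]
    exact ⟨by positivity, (div_le_one hΔ).2 (by linarith)⟩
  have hy1 : (x' - x) * sg (δ / 4) y0 = δ / 2 := by rw [hy0]; field_simp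
  have y1 : -(δ / 4) < y0 := by
    by_contra hh
    rw [(sg_zero ha).2 (not_lt.1 hh)] at hy1
    linarith
  have y2 : y0 < δ / 4 := by
    by_contra hh
    rw [(sg_one ha).2 (not_lt.1 hh)] at hy1
    linarith
  have sd := sg_deriv ha (abs_lt.2 ⟨y1, y2⟩)
  have r0 : (α y0).re = θ P := by rw [hα, al_re]; linarith
  have l0 := loc y0 (abs_lt.2 ⟨by linarith, by linarith⟩)
  have only : ∀ u, γ u ∈ core B → ∃ m : ℤ, u = y0 / L + m := by
    rintro u ⟨r, hr⟩
    rcases dec u with ⟨y, hy, m, rfl, e⟩ | ⟨⟨r', e⟩, -⟩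
    · obtain ⟨j, m', l, -, c2, -⟩ := nf_cross h (z := α y) (w := r)
        (by rw [hα, al_im, nf_abs h, abs_lt]; constructor <;> linarith [hy.1, hy.2])
        (by simpa using hδ) (e.symm.trans hr.symm)
      have c3 : (α y).re ∈ uIcc x x' := al_mem y
      rw [uIcc_of_le (by linarith), c2, ofReal_im, mul_zero, sub_zero] at c3
      rcases adj j l (by linarith [c3.1]) (by linarith [c3.2]) with ⟨rfl, rfl⟩ | ⟨rfl, rfl⟩
      · rw [hα, al_re] at c2
        have c4 : sg (δ / 4) y = sg (δ / 4) y0 := mul_left_cancel₀ hΔ.ne' (by simp at c2; linarith)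
        refine ⟨m, ?_⟩
        rcases lt_trichotomy y y0 with c5 | c5 | c5
        · rcases sg_inj ha c5 c4 with c6 | c6 <;> linarith
        · rw [c5]
        · rcases sg_inj ha c5 c4.symm with c6 | c6 <;> linarith
      · linarith [c3.2]
    · have := an_im h.hB (hr.trans e)
      simp only [ofReal_im, add_im, mul_im, ofReal_re, I_im, mul_one, I_re, mul_zero, add_zero,
        zero_add] at this
      rw [← this, abs_zero] at hs
      linarith
  have bx : ∀ v : ℝ, |y0 + ε P * v| < δ → A (α y0 + v * I) = B (t P + (y0 + ε P * v) : ℝ) :=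
    fun v hv => nf_box h P 0 0 (by simpa using hv) (by simpa using hδ) (by simp [r0])
      (by simp only [hα, al_im, add_im, mul_im, ofReal_re, I_im, mul_one, ofReal_im, I_re, mul_zero,
            add_zero, Int.cast_zero]
          linear_combination -v * ee)
  refine ⟨γ, hγ, hr, ?_, count hγ P (update ψ Q 0) fun u hu => ?_, Or.inr ⟨y0 / L, ?_, only⟩⟩
  · refine cut_conn tub X hγ hU (conn_up h.hB hU hc) hr h.hA (al_cd hf) hL l0 (d := I)
      (S := (fun r : ℝ => B r) '' Ioo (t P + y0) (t P + y0 + 1)) ?_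
      (isPreconnected_Ioo.image _ ((an_cont h.hB).comp continuous_ofReal).continuousOn) ?_ ?_
    · rw [(al_deriv hf y0).deriv]
      simpa using ⟨hΔ.ne', sd.ne'⟩
    · rintro _ ⟨r, hr', rfl⟩
      refine ⟨h.rB ⟨_, rfl⟩, fun ⟨u, hu⟩ => ?_⟩
      obtain ⟨m, rfl⟩ := only u ⟨r, hu.symm⟩
      have b0 := bx 0 (by rw [mul_zero, add_zero, abs_lt]; constructor <;> linarith)
      rw [cv_per hγ, l0.self_of_nhds, mul_div_cancel₀ _ hL.ne'] at hu
      simp only [ofReal_zero, zero_mul, add_zero, mul_zero] at b0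
      obtain ⟨l, hl⟩ := (h.hB.2 _ _).1 (b0.symm.trans hu)
      have := congrArg re hl
      simp only [ofReal_re, add_re, intCast_re] at this
      exact not_int (m := l) (k := 0) (by push_cast; linarith [hr'.1]) (by push_cast; linarith [hr'.2])
    · filter_upwards [self_mem_nhdsWithin, mem_nhdsWithin_of_mem_nhds
        (Ioo_mem_nhds (by linarith : -(δ / 4) < 0) ha)] with v v1 v2
      have v3 := abs_lt.1 ((nf_abs h P v).trans_lt (abs_lt.2 v2))
      rw [bx v (abs_lt.2 ⟨by linarith, by linarith⟩)]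
      rcases lt_or_gt_of_ne (mul_ne_zero (nf_sq h P) v1) with v4 | v4
      · refine ⟨t P + (y0 + ε P * v) + 1, ⟨by linarith, by linarith⟩, ?_⟩
        simpa using an_per h.hB (t P + (y0 + ε P * v) : ℝ) 1
      · exact ⟨_, ⟨by linarith, by linarith⟩, rfl⟩
  · rcases dec u with ⟨y, hy, m, rfl, e⟩ | ⟨-, e⟩
    · rw [e, an_mem h.hA, al_im] at hu
      obtain rfl : y = 0 := (mul_eq_zero.1 hu).resolve_left (nf_sq h P)
      refine ⟨tv_per hγ (tv_aff (F := A ∘ α) (y := 0) (b := 0) (L := L) ⟨α, (al_cd hf).contDiffAt,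
        Eventually.of_forall fun _ => rfl, by simp [hα], ?_⟩ hL.ne' (by simp)
        (by simpa using loc 0 (by simpa using hδ))) m, Q, hPQ.symm, m, by simp⟩
      rw [(al_deriv hf 0).deriv]
      simpa using nf_sq h P
    · obtain ⟨e1, j, j1, j2, m, e2⟩ := e hu
      exact ⟨e1, j, j1, m, by rwa [update_of_ne j2]⟩
  · set g : ℝ → ℂ := fun v => (t P + v : ℝ) + (ε P * (θ P - (x + (x' - x) * sg (δ / 4) v)) : ℝ) * I
    have cs := sg_cd (δ / 4)
    have dg : HasDerivAt g (((1 : ℝ) : ℂ) + (ε P * -((x' - x) * deriv (sg (δ / 4)) y0) : ℝ) * I) y0 :=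
      ((hasDerivAt_id' y0).const_add (t P)).ofReal_comp.add
        ((((((cs.differentiable (by simp) y0).hasDerivAt.const_mul _).const_add x).const_sub
          (θ P)).const_mul (ε P)).ofReal_comp.mul_const I)
    have g0 : (g y0).im = 0 := by
      rw [hα, al_re] at r0
      simp [g, r0]
    refine tv_aff (F := A ∘ α) (y := y0) (b := 0) (L := L) ⟨g, ?_, ?_, g0, ?_⟩ hL.ne'
      (by rw [zero_add, mul_div_cancel₀ _ hL.ne']) (by simpa using l0)
    · exact ((ofRealCLM.contDiff.comp (contDiff_const.add contDiff_id)).add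
        ((ofRealCLM.contDiff.comp (contDiff_const.mul (contDiff_const.sub
          (contDiff_const.add (contDiff_const.mul cs))))).mul contDiff_const)).contDiffAt
    · have c1 : ContinuousAt (fun v => |(g v).im|) y0 :=
        (continuous_im.continuousAt.comp dg.continuousAt).abs
      filter_upwards [c1.eventually_lt continuousAt_const (by rw [g0]; simpa using hδ),
        Ioo_mem_nhds y1 y2] with v v1 v2
      refine nf_box h P 0 0 ?_ v1 ?_ ?_
      · simp only [g, add_re, ofReal_re, mul_re, I_re, mul_zero, ofReal_im, I_im, mul_one, sub_self,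
          add_zero, Int.cast_zero, sub_zero, add_sub_cancel_left]
        exact abs_lt.2 ⟨by linarith [v2.1], by linarith [v2.2]⟩
      · simp only [g, hα, al_re, add_im, ofReal_im, mul_im, ofReal_re, I_im, mul_one, I_re, mul_zero,
          add_zero, zero_add, Int.cast_zero]
        linear_combination (θ P - (x + (x' - x) * sg (δ / 4) v)) * ee
      · simp [g, hα]
    · rw [dg.deriv]
      simpa using ⟨nf_sq h P, hΔ.ne', sd.ne'⟩

/-- opposite signs -/
theorem opp (tub : Tub) (hU : IsOpen U) (h : Nf X.o U A B n δ t θ ε)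
    (hc : IsPreconnected (U \ core B)) (hPQ : P ≠ Q) (g1 : θ P + 2 * δ ≤ θ Q + k)
    (g2 : θ Q + k ≤ θ P + 1 - 2 * δ) (adj : ∀ j, ∀ m : ℤ, θ P - 2 * δ < θ j + m →
      θ j + m < θ Q + k + 2 * δ → (j = P ∧ m = 0) ∨ (j = Q ∧ m = k)) (he : ε Q = -ε P) :
    Out U A B n := by
  have := ChartedSpace.locallyConnectedSpace ℂ X.R
  have := ChartedSpace.locallyPathConnectedSpace ℂ X.R
  have hδ := h.pos
  have cA := an_cont h.hA
  have ee : ε P * ε P = 1 := by rcases h.sgn P with e | e <;> simp [e]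
  set a0 := (fun r : ℝ => A r) '' Icc (θ P) (θ Q + k) with ha0
  have a0c : IsClosed a0 := (isCompact_Icc.image (cA.comp continuous_ofReal)).isClosed
  have hO : IsOpen ((U \ core B) \ a0) := (hU.sdiff (an_cpt h.hB).isClosed).sdiff a0c
  have NB : ∀ z : ℂ, θ P - δ < z.re → z.re < θ Q + k → z.re ≠ θ P → |z.im| < δ → A z ∈ U \ core B := by
    refine fun z z1 z2 z3 z4 => ⟨h.rA ⟨_, rfl⟩, fun ⟨r, hr⟩ => ?_⟩
    obtain ⟨j, m, l, -, c2, -⟩ := nf_cross h (w := r) z4 (by simpa using hδ) hr.symm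
    rw [ofReal_im, mul_zero, sub_zero] at c2
    rcases adj j l (by linarith) (by linarith) with ⟨rfl, rfl⟩ | ⟨rfl, rfl⟩
    · exact z3 (by simpa using c2)
    · linarith
  have lft : ∀ y : ℝ, |y| < δ → A ((θ P - δ / 2 : ℝ) + y * I) ∈ (U \ core B) \ a0 := fun y hy => by
    refine ⟨NB _ (by simp; linarith) (by simp; linarith) (by simp; linarith) (by simpa using hy), ?_⟩
    rintro ⟨r, hr, e⟩
    obtain ⟨l, hl⟩ := (h.hA.2 _ _).1 e
    have := congrArg re hl
    simp only [add_re, ofReal_re, mul_re, I_re, mul_zero, ofReal_im, I_im, mul_one, sub_self, add_zero,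
      intCast_re] at this
    exact not_int (m := l) (k := -1) (by push_cast; linarith [hr.2]) (by push_cast; linarith [hr.1])
  obtain ⟨_, ⟨z, ⟨z1, z2⟩, rfl⟩, hz⟩ := meets (N := A '' {z | z.re ∈ Ioo (θ P) (θ Q + k) ∧ |z.im| < δ})
    hc hO (an_open h.hA _ ((isOpen_Ioo.preimage continuous_re).inter
      (isOpen_lt continuous_im.abs continuous_const)))
    (by
      rintro _ ⟨h1, r, hr, rfl⟩
      refine ⟨r, ⟨⟨lt_of_le_of_ne hr.1 ?_, lt_of_le_of_ne hr.2 ?_⟩, by simpa using hδ⟩, rfl⟩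
      · rintro rfl
        exact h1.2 ⟨t P, (nf_box h P 0 0 (by simpa using hδ) (by simpa using hδ) (by simp)
          (by simp)).symm⟩
      · intro e
        exact h1.2 ⟨t Q, (nf_box h Q 0 k (by simpa using hδ) (by simpa using hδ) (by simpa using e)
          (by simp)).symm⟩)
    ⟨A (θ P + δ : ℝ), NB _ (by simp; linarith) (by simp; linarith) (by simp; linarith)
      (by simpa using hδ), _, ⟨by linarith, by linarith⟩, rfl⟩ (lft 0 (by simpa using hδ))
  have z3 : z.im ≠ 0 := fun e => (connectedComponentIn_subset _ _ hz).2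
    ⟨z.re, Ioo_subset_Icc_self z1, by show A _ = A _; congr 1; apply Complex.ext <;> simp [e]⟩
  obtain ⟨κ, hκ, z4⟩ : ∃ κ : ℝ, (κ = 1 ∨ κ = -1) ∧ 0 < κ * z.im := by
    rcases lt_or_gt_of_ne z3 with e | e
    exacts [⟨-1, Or.inr rfl, by linarith⟩, ⟨1, Or.inl rfl, by linarith⟩]
  have κa : ∀ y, |κ * y| = |y| := fun y => by rcases hκ with rfl | rfl <;> simp
  have κκ : κ * κ = 1 := by rcases hκ with rfl | rfl <;> simp
  have κd : |κ * (δ / 2)| = δ / 2 := by rw [κa, abs_of_pos (by linarith)]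
  set sgm : ℝ → X.R := fun ξ => A ((θ P + ξ : ℝ) + (κ * (δ / 2) : ℝ) * I) with hsgm
  have csg : Continuous sgm := cA.comp (by fun_prop)
  have m1 : sgm (δ / 2) ∈ connectedComponentIn ((U \ core B) \ a0) (sgm (-(δ / 2))) := by
    have cv : Convex ℝ {z : ℂ | z.re ∈ Ioo (θ P) (θ Q + k) ∧ κ * z.im ∈ Ioo 0 δ} :=
      ((convex_Ioo _ _).linear_preimage reLm).inter ((convex_Ioo _ _).linear_preimage (κ • imLm))
    have e1 := (cv.isPreconnected.image A cA.continuousOn).subset_connectedComponentIn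
      (F := (U \ core B) \ a0) (mem_image_of_mem A ⟨z1, z4, (le_abs_self _).trans_lt ((κa _).trans_lt z2)⟩)
      (by
        rintro _ ⟨w, ⟨w1, w2⟩, rfl⟩
        refine ⟨NB w (by linarith [w1.1]) w1.2 w1.1.ne' ?_, fun ⟨r, _, e⟩ => ?_⟩
        · rw [← κa, abs_of_pos w2.1]; exact w2.2
        · have := an_im h.hA e
          rw [ofReal_im] at this
          rw [← this, mul_zero] at w2
          exact lt_irrefl _ w2.1)
    have e2 := ((isPreconnected_Ioo (a := -δ) (b := δ)).image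
      (fun y : ℝ => A ((θ P - δ / 2 : ℝ) + y * I)) (cA.comp (by fun_prop)).continuousOn).subset_connectedComponentIn
      (F := (U \ core B) \ a0) (mem_image_of_mem _ (⟨by linarith, hδ⟩ : (0 : ℝ) ∈ Ioo (-δ) δ))
      (by rintro _ ⟨y, hy, rfl⟩; exact lft y (abs_lt.2 hy))
    have e3 := e2 (mem_image_of_mem _ (abs_lt.1 (κd.trans_lt (half_lt_self hδ))))
    rw [show sgm (-(δ / 2)) = A ((θ P - δ / 2 : ℝ) + (κ * (δ / 2) : ℝ) * I) from rfl,
      ← connectedComponentIn_eq e3, connectedComponentIn_eq hz]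
    refine e1 (mem_image_of_mem A ⟨?_, ?_⟩)
    · simp only [add_re, ofReal_re, mul_re, I_re, mul_zero, ofReal_im, I_im, mul_one, sub_self, add_zero]
      exact ⟨by linarith, by linarith⟩
    · simp only [add_im, ofReal_im, mul_im, ofReal_re, I_im, mul_one, I_re, mul_zero, add_zero, zero_add]
      rw [← mul_assoc, κκ]
      exact ⟨by linarith, by linarith⟩
  obtain ⟨K, K1, K2, K3, K4, K5⟩ := exists_cpt hO m1
  obtain ⟨δ1, hδ1, t1⟩ := an_tube h.hB K1.isClosed.isOpen_compl fun x hx hK => (K3 hK).1.2 hx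
  obtain ⟨δ2, hδ2, t2⟩ := tube cA K1.isClosed.isOpen_compl (a := θ P) (b := θ Q + k)
    fun x hx hK => (K3 hK).2 ⟨x, hx, rfl⟩
  obtain ⟨ρ, ρ0, ρ1, ρ2, ρ3⟩ : ∃ ρ > 0, ρ < δ1 ∧ 2 * ρ < δ2 ∧ 8 * ρ < δ :=
    ⟨min (δ1 / 2) (min (δ2 / 4) (δ / 16)), by positivity, by linarith [min_le_left (δ1 / 2) (min (δ2 / 4) (δ / 16))],
      by linarith [min_le_right (δ1 / 2) (min (δ2 / 4) (δ / 16)), min_le_left (δ2 / 4) (δ / 16)],
      by linarith [min_le_right (δ1 / 2) (min (δ2 / 4) (δ / 16)), min_le_right (δ2 / 4) (δ / 16)]⟩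
  set f0 : ℝ → ℝ := fun y => y * (2 * sg (ρ / 2) y - 1) + ρ with hf0
  have ρh : 0 < ρ / 2 := by linarith
  have f1 : ∀ y, ρ / 2 ≤ y → f0 y = y + ρ := fun y hy => by simp only [hf0, (sg_one ρh).2 hy]; ring
  have f2 : ∀ y, y ≤ -(ρ / 2) → f0 y = -(y - ρ) := fun y hy => by
    simp only [hf0, (sg_zero ρh).2 hy]; ring
  have f3 : ∀ y, |y * (2 * sg (ρ / 2) y - 1)| ≤ |y| := fun y => by
    rw [abs_mul]
    exact mul_le_of_le_one_right (abs_nonneg _)
      (abs_le.2 ⟨by linarith [@sg_nonneg (ρ / 2) y], by linarith [@sg_le (ρ / 2) y]⟩)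
  have f4 : ∀ y, 0 < f0 y := fun y => by
    rcases le_total (ρ / 2) y with e | e
    · rw [f1 y e]; linarith
    rcases le_total y (-(ρ / 2)) with e' | e'
    · rw [f2 y e']; linarith
    have := abs_le.1 ((f3 y).trans (abs_le.2 ⟨e', e⟩))
    simp only [hf0]
    linarith
  have f5 : ∀ y, |y| ≤ ρ → |κ * f0 y| ≤ 2 * ρ := fun y hy => by
    rw [κa, abs_of_pos (f4 y)]
    have := abs_le.1 ((f3 y).trans hy)
    simp only [hf0]
    linarith
  have cs := sg_cd (ρ / 2)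
  have hf : ContDiff ℝ ∞ fun y => κ * f0 y := by simp only [hf0]; fun_prop
  have hs : |ε P * -ρ| = ρ := by rw [nf_abs h, abs_neg, abs_of_pos ρ0]
  obtain ⟨S, E, kS, kE, x, x', y0, hSE, eE, eS, hx, hx', hI, hab, hy0, r0, i0, d0⟩ :
      ∃ (S E : Fin n) (kS kE : ℤ) (x x' y0 : ℝ), S ≠ E ∧ ε E = κ ∧ ε S = -κ ∧
        x = θ S + kS - ε S * (ε P * -ρ) ∧ x' = θ E + kE - ε E * (ε P * -ρ) ∧
        uIcc x x' = Icc (θ P + ρ) (θ Q + k - ρ) ∧
        (∀ j, ∀ m : ℤ, (j = P ∧ m = 0) ∨ (j = Q ∧ m = k) → (j = S ∧ m = kS) ∨ (j = E ∧ m = kE)) ∧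
        |y0| < δ / 2 ∧ x + (x' - x) * sg ρ y0 = θ P + ρ ∧ f0 y0 = δ / 2 ∧ deriv f0 y0 ≠ 0 := by
    by_cases e : ε P = κ
    · refine ⟨Q, P, k, 0, θ Q + k - ρ, θ P + ρ, δ / 2 - ρ, hPQ.symm, e, by rw [he, e],
        by rw [he]; linear_combination ρ * ee, by push_cast; linear_combination -ρ * ee,
        uIcc_of_ge (by linarith), fun j m hj => hj.symm, abs_lt.2 ⟨by linarith, by linarith⟩,
        by rw [(sg_one ρ0).2 (by linarith)]; ring, by rw [f1 _ (by linarith)]; ring, ?_⟩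
      have : f0 =ᶠ[𝓝 (δ / 2 - ρ)] fun y => y + ρ :=
        (eventually_gt_nhds (by linarith : ρ / 2 < δ / 2 - ρ)).mono fun s hs => f1 s hs.le
      rw [this.deriv_eq]; simp
    · have e' : ε P = -κ := by
        rcases hκ with rfl | rfl <;> rcases h.sgn P with e1 | e1 <;> simp_all
      refine ⟨P, Q, 0, k, θ P + ρ, θ Q + k - ρ, -(δ / 2 - ρ), hPQ, by rw [he, e', neg_neg], e',
        by push_cast; linear_combination -ρ * ee, by rw [he]; linear_combination ρ * ee,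
        uIcc_of_le (by linarith), fun j m hj => hj, abs_lt.2 ⟨by linarith, by linarith⟩,
        by rw [(sg_zero ρ0).2 (by linarith)]; ring, by rw [f2 _ (by linarith)]; ring, ?_⟩
      have : f0 =ᶠ[𝓝 (-(δ / 2 - ρ))] fun y => -(y - ρ) :=
        (eventually_lt_nhds (by linarith : -(δ / 2 - ρ) < -(ρ / 2))).mono fun s hs => f2 s hs.le
      rw [this.deriv_eq]; simp
  have xm : x ∈ Icc (θ P + ρ) (θ Q + k - ρ) := hI ▸ left_mem_uIcc
  have xm' : x' ∈ Icc (θ P + ρ) (θ Q + k - ρ) := hI ▸ right_mem_uIcc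
  obtain ⟨γ, L, hL, hγ, hr, loc, ψ, dec⟩ := crv h hSE kS kE (s := ε P * -ρ) (a := ρ)
    (b := δ / 2) (c := ρ) (f := fun y => κ * f0 y) hx hx'
    (fun j m hj => by
      rw [hI] at hj
      have := abs_le.1 ((nf_abs h j _).trans hs).le
      exact hab j m (adj j m (by linarith [hj.1]) (by linarith [hj.2])))
    (by
      intro e
      rw [e, uIcc_self] at hI
      have h1 : θ P + ρ ∈ ({x} : Set ℝ) := hI ▸ left_mem_Icc.2 (by linarith)
      have h2 : θ Q + k - ρ ∈ ({x} : Set ℝ) := hI ▸ right_mem_Icc.2 (by linarith)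
      rw [mem_singleton_iff] at h1 h2
      linarith)
    (abs_lt.2 ⟨by linarith [xm.2, xm'.1], by linarith [xm.1, xm'.2]⟩) ρ0 ρ0.le (by linarith)
    (by linarith) (by linarith) hf (fun y hy => by rw [eE, f1 y hy])
    (fun y hy => by rw [eS, f2 y hy]; ring) (fun y hy => by linarith [f5 y hy])
  set α := al x x' ρ fun y => κ * f0 y with hα
  have αm : ∀ y, (α y).re ∈ Icc (θ P + ρ) (θ Q + k - ρ) := fun y => hI ▸ al_mem y
  have off : ∀ ξ, |ξ| < δ → ξ ≠ ρ → sgm ξ ∈ U \ range γ := by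
    refine fun ξ h1 h2 => ⟨h.rA ⟨_, rfl⟩, fun ⟨u, hu⟩ => ?_⟩
    rcases dec u with ⟨y, hy, m, rfl, e⟩ | ⟨⟨r, e⟩, -⟩
    · have := an_im h.hA (e.symm.trans hu)
      simp only [hα, al_im, add_im, ofReal_im, mul_im, ofReal_re, I_im, mul_one, I_re, mul_zero,
        add_zero, zero_add] at this
      have h3 := f5 y (abs_le.2 hy)
      rw [this, κd] at h3
      linarith
    · have h3 : sgm ξ = B ((t P + ε P * (κ * (δ / 2)) : ℝ) + (ε P * -ξ : ℝ) * I) := by
        refine nf_box h P 0 0 ?_ ?_ ?_ ?_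
        · simp only [add_re, ofReal_re, mul_re, I_re, mul_zero, ofReal_im, I_im, mul_one, sub_self,
            add_zero, Int.cast_zero, sub_zero, add_sub_cancel_left]
          rw [nf_abs h, κd]; linarith
        · simp only [add_im, ofReal_im, mul_im, ofReal_re, I_im, mul_one, I_re, mul_zero, add_zero,
            zero_add]
          rwa [nf_abs h, abs_neg]
        · simp only [add_re, ofReal_re, mul_re, I_re, mul_zero, ofReal_im, I_im, mul_one, sub_self,
            add_zero, Int.cast_zero, add_im, mul_im, zero_add]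
          linear_combination -ξ * ee
        · simp only [add_re, ofReal_re, mul_re, I_re, mul_zero, ofReal_im, I_im, mul_one, sub_self,
            add_zero, Int.cast_zero, add_im, mul_im, zero_add]
          linear_combination -(κ * (δ / 2)) * ee
      have := an_im h.hB (h3.symm.trans (hu.symm.trans e))
      simp only [add_im, ofReal_im, mul_im, ofReal_re, I_im, mul_one, I_re, mul_zero, add_zero,
        zero_add] at this
      exact h2 (neg_injective (mul_left_cancel₀ (nf_sq h P) this))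
  refine ⟨γ, hγ, hr, ?_, count hγ S ψ fun u hu => ?_, Or.inl (disjoint_left.2 ?_)⟩
  · refine cut_conn tub X hγ hU (conn_up h.hB hU hc) hr h.hA (al_cd hf) hL (loc y0 hy0) (d := 1)
      (S := (sgm '' Ico (-(δ / 2)) ρ ∪ K) ∪ sgm '' Ioc ρ (δ / 2)) ?_ ?_ ?_ ?_
    · rw [(al_deriv hf y0).deriv, deriv_const_mul_field']
      simpa using ⟨by rcases hκ with rfl | rfl <;> simp, d0⟩
    · exact IsPreconnected.union _ (Or.inr K5) (mem_image_of_mem _ ⟨by linarith, le_rfl⟩)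
        (IsPreconnected.union _ (mem_image_of_mem _ ⟨le_rfl, by linarith⟩) K4
          (isPreconnected_Ico.image _ csg.continuousOn) K2) (isPreconnected_Ioc.image _ csg.continuousOn)
    · rintro p ((⟨ξ, hξ, rfl⟩ | hp) | ⟨ξ, hξ, rfl⟩)
      · exact off ξ (abs_lt.2 ⟨by linarith [hξ.1], by linarith [hξ.2]⟩) hξ.2.ne
      · refine ⟨(K3 hp).1.1, ?_⟩
        rintro ⟨u, rfl⟩
        rcases dec u with ⟨y, hy, m, rfl, e⟩ | ⟨⟨r, e⟩, -⟩
        · refine t2 (α y) ⟨by linarith [(αm y).1], by linarith [(αm y).2]⟩ ?_ (e ▸ hp)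
          rw [hα, al_im]
          linarith [f5 y (abs_le.2 hy)]
        · refine t1 _ ?_ (e ▸ hp)
          simp only [add_im, ofReal_im, mul_im, ofReal_re, I_im, mul_one, I_re, mul_zero, add_zero,
            zero_add]
          linarith
      · exact off ξ (abs_lt.2 ⟨by linarith [hξ.1], by linarith [hξ.2]⟩) hξ.1.ne'
    · filter_upwards [self_mem_nhdsWithin, mem_nhdsWithin_of_mem_nhds
        (Ioo_mem_nhds (by linarith : -ρ < 0) ρ0)] with v v1 v2
      have e : A (α y0 + v * 1) = sgm (ρ + v) := by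
        show A _ = A _
        congr 1
        apply Complex.ext
        · simp only [hα, add_re, al_re, r0]; simp; ring
        · simp [hα, i0]
      rw [e]
      rcases lt_or_gt_of_ne v1 with v3 | v3
      · exact Or.inl (Or.inl ⟨_, ⟨by linarith [v2.1], by linarith⟩, rfl⟩)
      · exact Or.inr ⟨_, ⟨by linarith, by linarith [v2.2]⟩, rfl⟩
  · rcases dec u with ⟨y, hy, m, rfl, e⟩ | ⟨-, e⟩
    · rw [e, an_mem h.hA, al_im] at hu
      have := κa (f0 y)
      rw [hu, abs_zero, abs_of_pos (f4 y)] at this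
      exact absurd this (f4 y).ne
    · obtain ⟨e1, j, j1, -, e2⟩ := e hu
      exact ⟨e1, j, j1, e2⟩
  · rintro _ ⟨u, rfl⟩ hu
    rcases dec u with ⟨y, hy, m, rfl, e⟩ | ⟨⟨r, e⟩, -⟩
    · rw [e] at hu
      refine (NB _ (by linarith [(αm y).1]) (by linarith [(αm y).2]) (by linarith [(αm y).1]) ?_).2 hu
      rw [al_im]
      linarith [f5 y (abs_le.2 hy)]
    · rw [e, an_mem h.hB] at hu
      simp only [add_im, ofReal_im, mul_im, ofReal_re, I_im, mul_one, I_re, mul_zero, add_zero,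
        zero_add] at hu
      rw [hu, abs_zero] at hs
      linarith

/-- SURG -/
theorem surg (tub : Tub) : Surg := by
  intro X U A B n δ t θ ε hU h hn hc
  obtain ⟨P, Q, k, hPQ, g1, g2, adj⟩ := nf_adj h hn
  by_cases he : ε Q = ε P
  · exact same tub hU h hc hPQ g1 g2 adj he
  · refine opp tub hU h hc hPQ g1 g2 adj ?_
    rcases h.sgn P with e | e <;> rcases h.sgn Q with e' | e' <;> simp_all

/-- LK without the surgery hypothesis -/
theorem lk' (n0 : Nf0) (nf : Nf1) (tub : Tub) (d2 : Dual2) (pl : Plumb) : Lk :=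
  lk n0 nf tub d2 pl (surg tub)

end Crest.Agent.X212.Mcg32
end
end

-- ▼ part X212/Arc9/Slide
section

/-!
# Row 212, PERF / ARC (helper9): squeezing a partial chart, sliding along a segment
-/

set_option autoImplicit false
set_option linter.unusedSectionVars false
noncomputable section
open Set Filter Topology Function Complex
open scoped ContDiff Manifold

namespace Crest.Agent.X212.Arc9

open Crest.Agent.X212.Prf6

/-- a product map of the plane is positive -/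
theorem pm_diag {f g : ℝ → ℝ} (hf : ContDiff ℝ ∞ f) (hg : ContDiff ℝ ∞ g) {z : ℂ}
    (h : 0 < deriv f z.re * deriv g z.im) :
    Pm oC oC (fun w : ℂ => (f w.re : ℂ) + g w.im * I) z := by
  refine pm_C isOpen_univ (mem_univ z) (ContDiff.contDiffOn ?_) ?_
  · exact (ofRealCLM.contDiff.comp (hf.comp reCLM.contDiff)).add
      ((ofRealCLM.contDiff.comp (hg.comp imCLM.contDiff)).mul contDiff_const)
  · have h1 := (hf.differentiable (by simp) z.re).hasDerivAt.comp_hasFDerivAt z reCLM.hasFDerivAt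
    have h2 := (hg.differentiable (by simp) z.im).hasDerivAt.comp_hasFDerivAt z imCLM.hasFDerivAt
    have h3 := (ofRealCLM.hasFDerivAt.comp z h1).add
      ((ofRealCLM.hasFDerivAt.comp z h2).mul_const' I)
    have h4 : HasFDerivAt (fun w : ℂ => (f w.re : ℂ) + g w.im * I) _ z := h3
    rw [h4.fderiv, det_C]
    simpa using h

/-- the squeeze of the plane onto a box -/
def sq (m R δ : ℝ) (z : ℂ) : ℂ := (m + R * Real.arctan z.re : ℝ) + (δ * Real.arctan z.im : ℝ) * I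

theorem sq_re (m R δ : ℝ) (z : ℂ) : (sq m R δ z).re = m + R * Real.arctan z.re := by
  simp [sq, -ofReal_arctan]

theorem sq_im (m R δ : ℝ) (z : ℂ) : (sq m R δ z).im = δ * Real.arctan z.im := by
  simp [sq, -ofReal_arctan]

theorem sq_real (m R δ x : ℝ) : sq m R δ x = (m + R * Real.arctan x : ℝ) := by simp [sq]

theorem st_sq (m : ℝ) {R δ : ℝ} (hR : 0 < R) (hδ : 0 < δ) : St oC (sq m R δ) := by
  refine ⟨fun z => pm_diag (f := fun x => m + R * Real.arctan x) (g := fun x => δ * Real.arctan x)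
    (contDiff_const.add (contDiff_const.mul Real.contDiff_arctan))
    (contDiff_const.mul Real.contDiff_arctan) ?_, fun z w h => ?_⟩
  · rw [(((Real.hasDerivAt_arctan z.re).const_mul R).const_add m).deriv,
      ((Real.hasDerivAt_arctan z.im).const_mul δ).deriv]
    positivity
  · have h1 := congrArg re h
    have h2 := congrArg im h
    rw [sq_re, sq_re, add_right_inj, mul_right_inj' hR.ne'] at h1
    rw [sq_im, sq_im, mul_right_inj' hδ.ne'] at h2
    exact Complex.ext (Real.arctan_injective h1) (Real.arctan_injective h2)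

theorem abs_arctan_lt (x : ℝ) : |Real.arctan x| < Real.pi / 2 :=
  abs_lt.2 ⟨Real.neg_pi_div_two_lt_arctan x, Real.arctan_lt_pi_div_two x⟩

/-- a partial chart gives a plane chart onto any box in its domain -/
theorem exists_sq {a b δ : ℝ} (hab : a < b) (hδ : 0 < δ) : ∃ κ : ℂ → ℂ, St oC κ ∧
    (∀ z, (κ z).re ∈ Ioo a b ∧ |(κ z).im| < δ) ∧ ∃ α : ℝ → ℝ, StrictMono α ∧ (∀ x : ℝ, κ x = α x) ∧
      ∀ t ∈ Ioo a b, ∃ x, α x = t := by
  have hp := Real.pi_pos
  have hR : 0 < (b - a) / Real.pi := div_pos (by linarith) hp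
  have e : (b - a) / Real.pi * (Real.pi / 2) = (b - a) / 2 := by field_simp
  refine ⟨sq ((a + b) / 2) ((b - a) / Real.pi) (δ * 2 / Real.pi), st_sq _ hR (by positivity),
    fun z => ⟨?_, ?_⟩, fun x => (a + b) / 2 + (b - a) / Real.pi * Real.arctan x,
    fun x y h => ?_, fun x => sq_real _ _ _ _, fun t ht => ⟨Real.tan ((t - (a + b) / 2) /
      ((b - a) / Real.pi)), ?_⟩⟩
  · rw [sq_re]
    have h := abs_lt.1 (abs_arctan_lt z.re)
    constructor <;> nlinarith [h.1, h.2]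
  · rw [sq_im, abs_mul, abs_of_pos (by positivity)]
    calc _ < δ * 2 / Real.pi * (Real.pi / 2) := mul_lt_mul_of_pos_left (abs_arctan_lt _) (by positivity)
      _ = δ := by field_simp
  · have := Real.arctan_strictMono h
    show _ + _ < _ + _
    nlinarith
  · show _ + _ * Real.arctan _ = t
    rw [Real.arctan_tan]
    · rw [mul_div_cancel₀ _ hR.ne']; ring
    · rw [lt_div_iff₀ hR]; nlinarith [ht.1]
    · rw [div_lt_iff₀ hR]; nlinarith [ht.2]

/-- translation along the real axis, cut off -/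
theorem exists_shift (a b : ℝ) : ∃ κ, Iso oC κ ∧ (∃ L, IsCompact L ∧ ∀ t, ∀ z ∉ L, κ t z = z) ∧
    ∀ x : ℝ, a ≤ x → ∃ y : ℝ, b ≤ y ∧ κ 1 x = y := by
  let χ : ContDiffBump (0 : ℂ) := ⟨2 * (|a| + |b|) + 1, 2 * (|a| + |b|) + 2, by positivity, by linarith⟩
  set T := |a| + |b| with hT
  let v : (x : ℂ) → TangentSpace IC x := fun z => ((χ z : ℝ) : ℂ)
  have hv : Flo26.SmV IC v := Flo26.smV_model.2 (ofRealCLM.contDiff.comp χ.contDiff)
  have h0 : ∀ z ∉ Metric.closedBall (0 : ℂ) χ.rOut, v z = 0 := fun z hz => by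
    have : χ z = 0 := χ.zero_of_le_dist (not_le.1 hz).le
    show ((χ z : ℝ) : ℂ) = 0
    rw [this, ofReal_zero]
  have hc : Flo26.Cpl v := Flo26.complete_of_compact hv (isCompact_closedBall _ _) h0
  refine ⟨fun t => flP hv hc (t * T), (iso_flP hv hc).reparam (by fun_prop) (by simp),
    ⟨_, isCompact_closedBall _ _, fun t z hz => (Flo26.fl_of_zero hv (h0 z hz) _).2⟩, fun x hx => ?_⟩
  simp only [one_mul, flP_apply]
  by_cases hb : x ≤ b
  · refine ⟨x + T, by linarith [le_abs_self b, neg_abs_le a], ?_⟩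
    have h1 := (Flo26.fl_of_curve hv (γ := fun s : ℝ => ((x + s : ℝ) : ℂ)) (T := T) fun s hs => ?_).2
    · simpa using h1
    rw [uIcc_of_le (by positivity)] at hs
    have h2 : ∀ᶠ u in 𝓝 s, |x + u| < χ.rIn := by
      refine ContinuousAt.eventually_lt (by fun_prop) continuousAt_const ?_
      show |x + s| < 2 * T + 1
      rw [abs_lt]
      constructor <;> linarith [le_abs_self b, neg_abs_le a, hs.1, hs.2, abs_nonneg a, abs_nonneg b]
    filter_upwards [h2] with u hu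
    have h3 : v ((x + u : ℝ) : ℂ) = (1 : ℂ) := by
      show ((χ _ : ℝ) : ℂ) = 1
      rw [χ.one_of_mem_closedBall (by rw [mem_closedBall_zero_iff, norm_real]; exact hu.le), ofReal_one]
    rw [h3]
    exact hasMFDerivAt_iff_hasFDerivAt.2 (((hasDerivAt_id u).const_add x).ofReal_comp).hasFDerivAt
  · have h1 := Flo26.comp_fl_eq hv (hc (T, x)) (f := imCLM) (c := 0) fun s _ =>
      ⟨imCLM.contDiff.contMDiff.mdifferentiableAt one_ne_zero, by
        rw [mfderiv_eq_fderiv, imCLM.fderiv]; exact ofReal_im (χ (Flo26.fl v s x))⟩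
    have h2 : Monotone fun s => (Flo26.fl v s (x : ℂ)).re := by
      have h3 : ∀ s, HasDerivAt (fun s => (Flo26.fl v s (x : ℂ)).re) (χ (Flo26.fl v s x)) s := fun s => by
        have := Flo26.hasDerivAt_comp_fl hv (hc (s, x)) (f := reCLM)
          (reCLM.contDiff.contMDiff.mdifferentiableAt one_ne_zero)
        rw [mfderiv_eq_fderiv, reCLM.fderiv] at this
        exact this
      exact monotone_of_deriv_nonneg (fun s => (h3 s).differentiableAt) fun s => by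
        rw [(h3 s).deriv]; exact χ.nonneg
    have h4 := h2 (show (0 : ℝ) ≤ T by positivity)
    simp only [Flo26.fl_zero hv, ofReal_re] at h4
    exact ⟨_, (not_le.1 hb).le.trans h4, Complex.ext (by simp) (by simpa using h1)⟩

variable {M : Type*} [TopologicalSpace M] [ChartedSpace ℂ M] [IsManifold IC ∞ M] [T2Space M]
  {o : Or M}

/-- **SLIDE**: push a segment of a partial chart towards its right end -/
theorem slide {e : ℂ → M} {Ω : Set ℂ} (hΩ : IsOpen Ω) (he : ∀ z ∈ Ω, Pm oC o e z) (hi : InjOn e Ω)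
    {a b' b : ℝ} (hab : a ≤ b') (hb : b' < b) (hs : ∀ t ∈ Icc a b, (t : ℂ) ∈ Ω) {F : Set M}
    (hF : IsClosed F) (hd : ∀ t ∈ Ico a b, e t ∉ F) :
    ∃ φ, Iso o φ ∧ NearI φ F ∧ ∀ t ∈ Icc a b, ∃ s ∈ Icc b' b, φ 1 (e t) = e s := by
  have hc : ContinuousOn e Ω := fun z hz => (he z hz).1.contMDiffAt.continuousAt.continuousWithinAt
  have h1 : IsOpen (Ω ∩ e ⁻¹' Fᶜ) := hc.isOpen_inter_preimage hΩ hF.isOpen_compl
  obtain ⟨δ0, hδ0, h2⟩ := ((isCompact_Icc (a := a) (b := b')).image continuous_ofReal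
    ).exists_thickening_subset_open h1 (by
      rintro _ ⟨t, ht, rfl⟩
      exact ⟨hs t ⟨ht.1, ht.2.trans hb.le⟩, hd t ⟨ht.1, ht.2.trans_lt hb⟩⟩)
  set δ := min (δ0 / 2) (b - b') with hδ
  have δp : 0 < δ := lt_min (half_pos hδ0) (by linarith)
  have d1 : δ ≤ δ0 / 2 := min_le_left _ _
  have d2 : δ ≤ b - b' := min_le_right _ _
  obtain ⟨κ, hκ, k1, α, a1, a2, a3⟩ := exists_sq (a := a - δ) (b := b' + δ) (by linarith) δp
  have k2 : ∀ z, κ z ∈ Ω ∩ e ⁻¹' Fᶜ := fun z => by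
    refine h2 (Metric.mem_thickening_iff.2 ⟨_, ⟨max a (min (κ z).re b'),
      ⟨le_max_left _ _, max_le hab (min_le_right _ _)⟩, rfl⟩, ?_⟩)
    rw [dist_eq_norm]
    refine (norm_le_abs_re_add_abs_im _).trans_lt ?_
    have b1 := (k1 z).1
    have b2 : |(κ z).re - max a (min (κ z).re b')| < δ := by
      rw [abs_lt]
      rcases le_total (κ z).re b' with h | h
      · rw [min_eq_left h]
        rcases le_total a (κ z).re with h' | h'
        · rw [max_eq_right h']; constructor <;> linarith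
        · rw [max_eq_left h']; constructor <;> linarith [b1.1]
      · rw [min_eq_right h, max_eq_right hab]; constructor <;> linarith [b1.2]
    simp only [sub_re, ofReal_re, sub_im, ofReal_im, sub_zero]
    linarith [(k1 z).2]
  have hE : St o (e ∘ κ) := ⟨fun z => (he _ (k2 z).1).comp (hκ.1 z),
    fun z w h => hκ.2 (hi (k2 z).1 (k2 w).1 h)⟩
  obtain ⟨x0, hx0⟩ := a3 a ⟨by linarith, by linarith⟩
  obtain ⟨x1, hx1⟩ := a3 b' ⟨by linarith, by linarith⟩
  obtain ⟨ψ, hψ, ⟨L, hL, hL'⟩, h3⟩ := exists_shift x0 x1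
  refine ⟨fun t => tr (e ∘ κ) (ψ t), hE.tr_iso hψ hL hL', hE.tr_nearI hL hL' (disjoint_left.2 ?_),
    fun t ht => ?_⟩
  · rintro _ ⟨z, -, rfl⟩
    exact (k2 z).2
  · by_cases h4 : t < b' + δ
    · obtain ⟨x, rfl⟩ := a3 t ⟨by linarith [ht.1], h4⟩
      obtain ⟨y, hy, h5⟩ := h3 x (a1.le_iff_le.1 (hx0 ▸ ht.1))
      have h6 := (k1 y).1.2
      rw [a2, ofReal_re] at h6
      refine ⟨α y, ⟨hx1 ▸ a1.monotone hy, by linarith⟩, ?_⟩
      rw [← a2, ← a2, ← h5]
      exact hE.apply _ _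
    · refine ⟨t, ⟨by linarith, ht.2⟩, (hE.wd _).out ?_⟩
      rintro ⟨z, hz⟩
      have h5 := (k1 z).1.2
      rw [hi (k2 z).1 (hs t ht) hz, ofReal_re] at h5
      exact h4 h5

end Crest.Agent.X212.Arc9
end
end

-- ▼ part X212/Arc9/Half
section

/-!
# Row 212, PERF / ARC (helper9): fixing one half of an arc by pushing a foot of the handle
-/

set_option autoImplicit false
set_option linter.unusedSectionVars false
noncomputable section
open Set Filter Topology Function Complex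
open scoped ContDiff Manifold

namespace Crest.Agent.X212.Arc9

open Crest.Agent.X212.Prf6

/-- a ray that runs into a closed set -/
theorem closed_ray {X : Type*} [TopologicalSpace X] [T2Space X] [CompactSpace X] {F : Set X}
    (hF : IsClosed F) {β : ℝ → X} (hβ : Continuous β)
    (h : ∀ O, IsOpen O → F ⊆ O → ∀ᶠ y in atTop, β y ∈ O) (a : ℝ) : IsClosed (F ∪ β '' Ici a) := by
  refine isClosed_of_closure_subset fun x hx => by_contra fun hn => ?_
  obtain ⟨O, N, hO, hN, h1, h2, h3⟩ := normal_separation hF isClosed_singleton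
    (disjoint_singleton_right.2 fun h => hn (Or.inl h))
  obtain ⟨R, hR⟩ := eventually_atTop.1 (h O hO h1)
  have h4 : IsClosed (β '' Icc a R) := (isCompact_Icc.image hβ).isClosed
  obtain ⟨y, ⟨a1, a2⟩, a3⟩ := mem_closure_iff.1 hx (N ∩ (β '' Icc a R)ᶜ) (hN.inter h4.isOpen_compl)
    ⟨h2 rfl, fun ⟨t, ht, e⟩ => hn (Or.inr ⟨t, ht.1, e⟩)⟩
  rcases a3 with a3 | ⟨t, ht, rfl⟩
  · exact disjoint_left.1 h3 (h1 a3) a1
  · rcases le_total t R with h5 | h5
    · exact a2 ⟨t, ⟨ht, h5⟩, rfl⟩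
    · exact disjoint_left.1 h3 (hR t h5) a1

theorem conn_ray {X : Type*} [TopologicalSpace X] {F : Set X} (hF : IsPreconnected F) {β : ℝ → X}
    (hβ : Continuous β) (h : ∀ O, IsOpen O → F ⊆ O → ∀ᶠ y in atTop, β y ∈ O) (a : ℝ) :
    IsPreconnected (F ∪ β '' Ioi a) := by
  obtain ⟨z, h1, h2⟩ : (F ∩ closure (β '' Ioi a)).Nonempty := by
    by_contra hn
    obtain ⟨y, a1, a2⟩ := ((h _ isClosed_closure.isOpen_compl fun z hz hc => hn ⟨z, hz, hc⟩).and
      (eventually_gt_atTop a)).exists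
    exact a1 (subset_closure ⟨y, a2, rfl⟩)
  have h3 : IsPreconnected (insert z (β '' Ioi a)) :=
    (isPreconnected_Ioi.image _ hβ.continuousOn).subset_closure (subset_insert _ _)
      (insert_subset h2 subset_closure)
  have := hF.union z h1 (mem_insert _ _) h3
  rwa [union_insert, insert_eq_of_mem (mem_union_left _ h1)] at this

/-- **one half of the arc** -/
theorem half (hcap : Cap) (hpush : Push) (X : Sf) (htw : TW X.o) {A B : ℂ → X.R} (hA : An X.o A)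
    (hn : NS A) (hB : St X.o B) {F : Set X.R} (hF : IsClosed F) (hd : Disjoint F (core A))
    {y0 y1 : ℝ} (hy0 : 0 ≤ y0) (hy1 : 0 < y1) (h1 : ∀ y ∈ Ioc 0 y1, B y = A (y * I))
    (h2 : ∀ y : ℝ, 0 < y → B y ∉ core A ∧ B y ∉ F ∧ ∀ r ∈ Ioc 0 y0, B y ≠ A (-(r * I)))
    (h3 : ∀ O, IsOpen O → F ⊆ O → ∀ᶠ y : ℝ in atTop, B y ∈ O) {g : Equiv.Perm X.R}
    (hg : g ∈ G X.o) (hN : Near g (core A ∪ (F ∪ (fun r : ℝ => A (-(r * I))) '' Ioc 0 y0))) :
    ∃ k ∈ K X.o, Near (k * g)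
      (core A ∪ (F ∪ (fun r : ℝ => A (-(r * I))) '' Ioc 0 y0) ∪ (fun y : ℝ => B y) '' Ioi 0) := by
  obtain ⟨Y, j, D, hD⟩ := hcap X Unit (fun _ => A) (fun _ => hA) fun i k h => (h rfl).elim
  set P := range fun p : Unit × Bool => D p.1 p.2 0 with hP
  have col : Col0 X.o Y.o j (core A) P := by
    have := hD.col.col0
    rwa [iUnion_const] at this
  obtain ⟨f, hf, hfN, rfl⟩ := col.exists_down hg hN
  have up : ∀ r : ℝ, 0 < r → j (A (r * I)) = D () true r := fun r hr => by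
    simpa using hD.up () 0 r hr
  have dn : ∀ r : ℝ, 0 < r → j (A (-(r * I))) = D () false r := fun r hr => by
    simpa using hD.dn () 0 r hr
  have dis := disjoint_left.1 (hD.dis ((), true) ((), false) (by simp))
  have cB : Continuous fun y : ℝ => B y := (cont_of_pm hB.1).comp continuous_ofReal
  have nA : ∀ r : ℝ, 0 < r → A (-(r * I)) ∉ core A := fun r hr h => by
    have := hA.mem_core.1 h
    simp at this; exact hr.ne' this
  -- the closed sets
  let Fb : ℝ → Set Y.R := fun a => j '' (F ∪ (fun y : ℝ => B y) '' Ici a) ∪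
    (fun r : ℝ => D () false r) '' Icc 0 y0
  have Fc : ∀ a, 0 < a → IsClosed (Fb a) := fun a ha => by
    refine (((closed_ray hF cB h3 a).isCompact.image_of_continuousOn (col.cont.mono ?_)).union
      (isCompact_Icc.image ((cont_of_pm (hD.st () false).1).comp continuous_ofReal))).isClosed
    rintro x (hx | ⟨y, hy, rfl⟩)
    · exact disjoint_left.1 hd hx
    · exact (h2 y (ha.trans_le hy)).1
  have Fn : ∀ a y : ℝ, 0 < y → y < a → j (B y) ∉ Fb a := fun a y hy hya => by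
    rintro (⟨x, hx, e⟩ | ⟨r, hr, e⟩)
    · have hx' : x ∉ core A := by
        rcases hx with hx | ⟨y', hy', rfl⟩
        · exact disjoint_left.1 hd hx
        · exact (h2 y' (hy.trans (hya.trans_le hy'))).1
      obtain rfl := col.bij.injOn hx' (h2 y hy).1 e
      rcases hx with hx | ⟨y', hy', e'⟩
      · exact (h2 y hy).2.1 hx
      · exact not_le.2 hya (ofReal_injective (hB.2 e') ▸ hy')
    · rcases hr.1.eq_or_lt with rfl | h0
      · exact col.j_not (h2 y hy).1 ⟨((), false), e⟩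
      · exact (h2 y hy).2.2 r ⟨h0, hr.2⟩
          (col.bij.injOn (h2 y hy).1 (nA r h0) (e.symm.trans (dn r h0).symm))
  have Dj : ∀ y ∈ Ioc 0 y1, D () true y = j (B y) := fun y hy => by rw [h1 y hy, up y hy.1]
  obtain ⟨O, hO, hO1, hO2⟩ := near_iff_open.1 hfN
  obtain ⟨R, hR⟩ := eventually_atTop.1 (((h3 _ (col.cont.isOpen_inter_preimage
    col.cl.isOpen_compl hO) fun x hx => ⟨disjoint_left.1 hd hx,
      hO1 (Or.inr ⟨x, ⟨Or.inl hx, disjoint_left.1 hd hx⟩, rfl⟩)⟩)).and (eventually_ge_atTop y1))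
  have Ry : y1 ≤ R := (hR R le_rfl).2
  obtain ⟨ρ, r1, r2, r3⟩ := slide isOpen_univ (fun z _ => (hD.st () true).1 z)
    (hD.st () true).2.injOn (a := 0) (b' := y1 / 2) (b := y1) (by linarith) (by linarith)
    (fun _ _ => trivial) (Fc y1 hy1) fun t ht => by
      rcases ht.1.eq_or_lt with rfl | h0
      · rintro (⟨x, hx, e⟩ | ⟨r, -, e⟩)
        · refine col.j_not (x := x) ?_ ⟨((), true), e.symm⟩
          rcases hx with hx | ⟨y', hy', rfl⟩
          · exact disjoint_left.1 hd hx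
          · exact (h2 y' (hy1.trans_le hy')).1
        · exact dis ⟨_, rfl⟩ ⟨_, e⟩
      · rw [Dj t ⟨h0, ht.2.le⟩]; exact Fn y1 t h0 ht.2
  obtain ⟨σ, s1, s2, s3⟩ := slide (e := j ∘ B) (Ω := B ⁻¹' (core A)ᶜ)
    (col.cl.isOpen_compl.preimage (cont_of_pm hB.1)) (fun z hz => (col.pos _ hz).comp (hB.1 z))
    (fun z hz w hw e => hB.2 (col.bij.injOn hz hw e)) (a := y1 / 2) (b' := R) (b := R + 1)
    (by linarith) (by linarith) (fun t ht => (h2 t (by linarith [ht.1])).1) (Fc (R + 1) (by linarith))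
    fun t ht => Fn (R + 1) t (by linarith [ht.1]) ht.2
  have sub : Fb (R + 1) ⊆ Fb y1 := union_subset_union_left _
    (image_mono (union_subset_union_right _ (image_mono (Ici_subset_Ici.2 (by linarith)))))
  have hτ := s1.mul r1
  have nτ : NearI (fun t => σ t * ρ t) (Fb (R + 1)) := s2.mul (r2.mono sub)
  have x0 : D () false 0 ∈ Fb (R + 1) := Or.inr ⟨0, ⟨le_rfl, hy0⟩, rfl⟩
  have k1 : ∀ y : ℝ, y1 / 2 ≤ y → σ 1 (j (B y)) ∈ O := fun y hy => by
    rcases le_total y (R + 1) with h | h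
    · obtain ⟨s, a1, a2⟩ := s3 y ⟨hy, h⟩
      rw [show σ 1 (j (B y)) = j (B s) from a2]; exact (hR s a1.1).1.2
    · rw [(s2.near 1).fix (Or.inl ⟨_, Or.inr ⟨y, h, rfl⟩, rfl⟩)]
      exact (hR y (by linarith)).1.2
  have k2 : ∀ y ∈ Icc 0 y1, σ 1 (ρ 1 (D () true y)) ∈ O := fun y hy => by
    obtain ⟨s, a1, a2⟩ := r3 y hy
    rw [a2, Dj s ⟨by linarith [a1.1], a1.2⟩]; exact k1 s a1.1
  set τ := σ 1 * ρ 1 with hτ1
  have τG : τ ∈ G Y.o := hτ.mem 1
  set S := F ∪ (fun r : ℝ => A (-(r * I))) '' Ioc 0 y0 with hS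
  have hh : Near (τ⁻¹ * f * τ) (P ∪ j '' ((S ∪ (fun y : ℝ => B y) '' Ioi 0) \ core A)) := by
    refine near_iff_open.2 ⟨τ ⁻¹' O, hO.preimage (G_cont τG), ?_, fun x hx => ?_⟩
    · rintro x (⟨⟨_, b⟩, rfl⟩ | ⟨x, ⟨hx | ⟨y, hy, rfl⟩, hx'⟩, rfl⟩)
      · cases b
        · rw [mem_preimage, (nτ.near 1).fix x0]; exact hO1 (Or.inl ⟨((), false), rfl⟩)
        · exact k2 0 ⟨le_rfl, hy1.le⟩
      · have : j x ∈ Fb (R + 1) := by
          rcases hx with hx | ⟨r, hr, rfl⟩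
          · exact Or.inl ⟨x, Or.inl hx, rfl⟩
          · exact Or.inr ⟨r, ⟨hr.1.le, hr.2⟩, (dn r hr.1).symm⟩
        rw [mem_preimage, (nτ.near 1).fix this]; exact hO1 (Or.inr ⟨x, ⟨hx, hx'⟩, rfl⟩)
      · rcases le_total y y1 with h | h
        · have := k2 y ⟨le_of_lt hy, h⟩
          rwa [Dj y ⟨hy, h⟩] at this
        · show σ 1 (ρ 1 (j (B y))) ∈ O
          rw [(r2.near 1).fix (Or.inl ⟨_, Or.inr ⟨y, h, rfl⟩, rfl⟩)]; exact k1 y (by linarith)
    · show τ⁻¹ (f (τ x)) = x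
      rw [hO2 _ hx]; simp
  have fP : Near f P := hfN.mono subset_union_left
  have hP' : Near (τ⁻¹ * f * τ) P := hh.mono subset_union_left
  have e1 : f⁻¹ * τ⁻¹ * f⁻¹⁻¹ * τ = f⁻¹ * (τ⁻¹ * f * τ) := by group
  have hk := hpush X Y A j D htw hA hn hD _ ((hτ.inv.conj (inv_mem hf)).mul hτ) (by
    have a1 := nτ.mono (singleton_subset_iff.2 x0)
    have a2 : Near f {D () false 0} := fP.mono (singleton_subset_iff.2 ⟨((), false), rfl⟩)
    exact ((a2.inv.nearI.mul a1.inv).mul a2.inv.inv.nearI).mul a1) (by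
    show Near (f⁻¹ * τ⁻¹ * f⁻¹⁻¹ * τ) _
    rw [e1]
    exact (fP.inv.mul hP').mono (singleton_subset_iff.2 ⟨((), true), rfl⟩))
  refine ⟨_, conj_mem hg hk, ?_⟩
  show Near (lf j (core A) f * lf j (core A) (f⁻¹ * τ⁻¹ * f⁻¹⁻¹ * τ) * (lf j (core A) f)⁻¹ *
    lf j (core A) f) _
  rw [inv_mul_cancel_right, e1, ← col.lf_mul (fun _ => fP.fix) fun _ => (fP.inv.mul hP').fix,
    mul_inv_cancel_left]
  refine (col.lf_near hh).mono fun x hx => ?_
  by_cases hc : x ∈ core A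
  · exact Or.inl hc
  · exact Or.inr ⟨x, ⟨by rw [union_assoc] at hx; exact hx.resolve_left hc, hc⟩, rfl⟩

end Crest.Agent.X212.Arc9
end
end

-- ▼ part X212/Arc9/Main
section

/-!
# Row 212, PERF / ARC (helper9): `ArcS`
-/

set_option autoImplicit false
set_option linter.unusedSectionVars false
noncomputable section
open Set Filter Topology Function Complex
open scoped ContDiff Manifold

namespace Crest.Agent.X212.Arc9

open Crest.Agent.X212.Prf6 Crest.Agent.X212.Tub3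

/-- an annulus in `U` whose core crosses the arc once, in normal form -/
structure Dual {M : Type*} [TopologicalSpace M] [ChartedSpace ℂ M] (o : Or M) (U : Set M)
    (A B : ℂ → M) (s σ δ : ℝ) : Prop where
  an : An o A
  rg : range A ⊆ U
  ne : σ ≠ 0
  pos : 0 < δ
  eq : ∀ y : ℝ, |y| ≤ δ → A (y * I) = B (s + σ * y)
  one : ∀ t : ℝ, B t ∈ core A → t = s

theorem dual_of (htub : Tub) (X : Sf) {U : Set X.R} (hU : IsOpen U) {B : ℂ → X.R} (hB : St X.o B)
    {γ : ℝ → X.R} (hγ : Cv γ) (hr : range γ ⊆ U) {e : ℂ → X.R} (he : Pm oC X.o e 0)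
    (h1 : ∀ᶠ u : ℝ in 𝓝 0, e u = γ u) {s σ : ℝ} (hσ : σ ≠ 0)
    (h2 : ∀ᶠ y : ℝ in 𝓝 0, e (y * I) = B (s + σ * y))
    (h3 : ∀ t, γ t ∈ core B → ∃ n : ℤ, t = n) :
    ∃ A δ, Dual X.o U A B s σ δ ∧ core A = range γ := by
  obtain ⟨A, a1, a2, a3, a4⟩ := htub X γ U 1 (fun _ => 0) (fun _ => e) hγ hU hr
    (fun _ _ _ _ => Subsingleton.elim _ _) (fun _ => he) fun _ => by simpa using h1
  have c : Tendsto (fun y : ℝ => (y * I : ℂ)) (𝓝 0) (𝓝 0) :=
    Continuous.tendsto' (by fun_prop) 0 0 (by simp)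
  obtain ⟨δ, hδ, h4⟩ := Metric.nhds_basis_closedBall.mem_iff.1 ((c.eventually (a4 0)).and h2)
  have e1 : core A = range γ := congrArg range (funext a3)
  refine ⟨A, δ, ⟨a1, a2, hσ, hδ, fun y hy => ?_, fun t ht => ?_⟩, e1⟩
  · have := h4 (mem_closedBall_zero_iff.2 hy)
    rw [← this.2, ← this.1]; simp
  · obtain ⟨u, hu⟩ := e1 ▸ ht
    obtain ⟨n, rfl⟩ := h3 u ⟨t, hu.symm⟩
    have a5 := h1.self_of_nhds
    have a6 := h2.self_of_nhds
    have a7 := hγ.per 0 n
    simp only [ofReal_zero, zero_mul, mul_zero, add_zero, zero_add] at a5 a6 a7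
    exact ofReal_injective (hB.2 (by rw [← hu, a7, ← a5, a6]))

section
variable {M : Type*} [TopologicalSpace M] [ChartedSpace ℂ M] [IsManifold IC ∞ M] [T2Space M]
  {o : Or M} {U : Set M} {A B : ℂ → M} {s σ δ : ℝ}

theorem Dual.off (h : Dual o U A B s σ δ) {y : ℝ} (hy : y ≠ 0) : B (s + σ * y) ∉ core A := fun hc => by
  have := h.one (s + σ * y) (by simpa using hc)
  exact mul_ne_zero h.ne hy (by linarith)

theorem Dual.neg (h : Dual o U A B s σ δ) : Dual o U (fun z => A (-z)) B s (-σ) δ :=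
  ⟨h.an.neg, by rintro _ ⟨z, rfl⟩; exact h.rg ⟨_, rfl⟩, neg_ne_zero.2 h.ne, h.pos, fun y hy => by
    simpa using h.eq (-y) (by rwa [abs_neg]), fun t ht => h.one t (core_neg A ▸ ht)⟩

/-- the two halves of the arc join the two sides -/
theorem Dual.conn (h : Dual o U A B s σ δ) {W T : Set M} (hW : IsOpen W) (hc : IsPreconnected W)
    (hA : core A ⊆ W) (hT : IsPreconnected T) (hTW : T ⊆ W \ core A)
    (hB : ∀ t : ℝ, t ≠ s → B t ∈ T) : IsPreconnected (W \ core A) := by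
  have key : ∀ y : ℝ, y ≠ 0 → |y| ≤ δ → A (y * I) ∈ T := fun y hy hy' => by
    rw [h.eq y hy']
    simpa using hB (s + σ * y) fun e => mul_ne_zero h.ne hy (by linarith)
  refine h.an.conn_diff hW hc hA hT hTW (fun ε hε => ?_) fun ε hε => ?_
  · have a := lt_min h.pos (half_pos hε)
    have b := min_le_right δ (ε / 2)
    exact ⟨(min δ (ε / 2) : ℝ) * I, by simp only [mul_I_im, ofReal_re]; constructor <;> linarith,
      key _ a.ne' (by rw [abs_of_pos a]; exact min_le_left _ _)⟩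
  · have a := lt_min h.pos (half_pos hε)
    have b := min_le_right δ (ε / 2)
    exact ⟨(-min δ (ε / 2) : ℝ) * I, by simp only [mul_I_im, ofReal_re]; constructor <;> linarith,
      key _ (neg_ne_zero.2 a.ne') (by rw [abs_neg, abs_of_pos a]; exact min_le_left _ _)⟩

variable [CompactSpace M] {Z : Set M} {η : M → ℝ}

theorem exists_lt (h : Arc o Z B η) {O : Set M} (hO : IsOpen O) (hZ : Z ⊆ O) :
    ∃ ε > 0, ∀ x, η x < ε → x ∈ O := by
  obtain ⟨ε, h1, h2⟩ := hO.isClosed_compl.isCompact.exists_forall_le' h.cont.continuousOn (a := 0)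
    fun x hx => lt_of_le_of_ne (h.nn x) fun e => hx (hZ ((h.zero x).1 e.symm))
  exact ⟨ε, h1, fun x hx => by_contra fun hn => not_le.2 hx (h2 x hn)⟩

theorem ev_mem (h : Arc o Z B η) (s : ℝ) {σ : ℝ} (hσ : σ ≠ 0) (O : Set M) (hO : IsOpen O)
    (hZ : Z ⊆ O) : ∀ᶠ y : ℝ in atTop, B (s + σ * y) ∈ O := by
  obtain ⟨ε, h1, h2⟩ := exists_lt h hO hZ
  have h3 : Tendsto (fun y : ℝ => s + σ * y) atTop (cocompact ℝ) := by
    rw [cocompact_eq_atBot_atTop]
    rcases hσ.lt_or_gt with h | h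
    · exact (tendsto_atBot_add_const_left _ s (tendsto_id.const_mul_atTop_of_neg h)).mono_right
        le_sup_left
    · exact (tendsto_atTop_add_const_left _ s (tendsto_id.const_mul_atTop h)).mono_right le_sup_right
  filter_upwards [(h.lim.comp h3).eventually (gt_mem_nhds h1)] with y hy
  exact h2 _ (by simpa using hy)

theorem dense_arc (h : Arc o Z B η) : Dense (core B)ᶜ := fun x => by
  by_cases hx : x ∈ core B
  · obtain ⟨t, rfl⟩ := hx
    rw [mem_closure_iff_frequently, ← (h.st.1 t).map_nhds, frequently_map]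
    exact (freq_im _).mono fun w hw e => hw (h.st.mem_core.1 e)
  · exact subset_closure hx

theorem arc_diff (Z S : Set M) : Zᶜ \ S = (Z ∪ S)ᶜ := by rw [compl_union]; rfl

theorem conn_U (h : Arc o Z B η) : IsPreconnected Zᶜ :=
  conn_of_dense h.cl.isOpen_compl (dense_arc h) (arc_diff Z _ ▸ h.cc)

theorem conn_T (h : Arc o Z B η) (s : ℝ) : ∃ T, IsPreconnected T ∧ Z ⊆ T ∧
    (∀ t : ℝ, t ≠ s → B t ∈ T) ∧ ∀ x ∈ T, x ∈ Z ∨ ∃ t : ℝ, t ≠ s ∧ x = B t := by
  have c : ∀ σ : ℝ, Continuous fun y : ℝ => B (s + σ * y) := fun σ =>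
    (cont_of_pm h.st.1).comp (by fun_prop)
  refine ⟨_, conn_ray (conn_ray h.conn (c 1) (ev_mem h s one_ne_zero) 0) (c (-1))
    (fun O hO hZ => ev_mem h s (by simp) O hO (subset_union_left.trans hZ)) 0,
    subset_union_left.trans subset_union_left, fun t ht => ?_, ?_⟩
  · rcases ht.lt_or_gt with a | a
    · exact Or.inr ⟨s - t, sub_pos.2 a, by simp⟩
    · exact Or.inl (Or.inr ⟨t - s, sub_pos.2 a, by simp⟩)
  · rintro x ((hx | ⟨y, hy, rfl⟩) | ⟨y, hy, rfl⟩)
    · exact Or.inl hx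
    · exact Or.inr ⟨s + y, fun e => by have : (0 : ℝ) < y := hy; linarith, by simp⟩
    · exact Or.inr ⟨s - y, fun e => by have : (0 : ℝ) < y := hy; linarith, by simp [sub_eq_add_neg]⟩

theorem conn_univ (h : Arc o Z B η) : IsPreconnected (univ : Set M) := by
  obtain ⟨T, h1, h2, h3, -⟩ := conn_T h 0
  have := h1.union (B (1 : ℝ)) (h3 1 one_ne_zero) (h.off _) (conn_U h)
  rwa [eq_univ_of_subset (union_subset_union_left _ h2) (union_compl_self Z)] at this

theorem Dual.ns (hd : Dual o Zᶜ A B s σ δ) (h : Arc o Z B η) : NS A := by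
  obtain ⟨T, h1, -, h3, h4⟩ := conn_T h s
  unfold NS
  rw [compl_eq_univ_sdiff]
  refine hd.conn isOpen_univ (conn_univ h) (subset_univ _) h1 (fun x hx => ⟨trivial, fun hc => ?_⟩) h3
  rcases h4 x hx with a | ⟨t, a, rfl⟩
  · exact hd.rg (core_subset A hc) a
  · exact a (hd.one t hc)

end

/-- the dual curve -/
theorem exists_dual (harx : Arcx) (htub : Tub) (X : Sf) {Z : Set X.R} {B : ℂ → X.R} {η : X.R → ℝ}
    (h : Arc X.o Z B η) {O : Set X.R} (hO : IsOpen O) (hZ : Z ⊆ O) :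
    ∃ A s σ δ, Dual X.o Zᶜ A B s σ δ ∧ (core A ⊆ O ∨ IsPreconnected (Zᶜ \ core A)) := by
  have hU := h.cl.isOpen_compl
  have cB : Continuous fun t : ℝ => B t := (cont_of_pm h.st.1).comp continuous_ofReal
  obtain ⟨γ0, g1, g2, g3, c, hc, g4⟩ := harx X Zᶜ (core B) B hU (arc_diff Z _ ▸ h.cl'.isOpen_compl)
    (arc_diff Z _ ▸ h.cc) (h.st.1 0) (h.off 0) (Eventually.of_forall fun z => h.st.mem_core)
  obtain ⟨A0, δ0, d0, -⟩ := dual_of htub X hU h.st g1 g2 (e := fun z => B (0 + c * I * z))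
    ((h.st.affine (mul_ne_zero (ofReal_ne_zero.2 hc.ne') I_ne_zero) 0).1 0)
    (g4.mono fun u hu => by rw [hu]; congr 1; ring) (s := 0) (σ := -c) (neg_ne_zero.2 hc.ne')
    (Eventually.of_forall fun y => by
      congr 1; push_cast; linear_combination c * y * I_mul_I) g3
  obtain ⟨T0, hT0⟩ := h.mono
  set T := max T0 1 with hT
  have T1 : (1 : ℝ) ≤ T := le_max_right _ _
  have hm : ∀ t, T ≤ t → deriv (fun s : ℝ => η (B s)) t < 0 := fun t ht => by
    have := hT0 t ((le_max_left _ _).trans (ht.trans (le_abs_self t)))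
    exact (neg_iff_neg_of_mul_pos (a := -t) (by linarith)).1 (by linarith)
  have ch : Continuous fun s : ℝ => η (B s) := h.cont.comp cB
  have anti : StrictAntiOn (fun s : ℝ => η (B s)) (Ici T) :=
    strictAntiOn_of_deriv_neg (convex_Ici T) ch.continuousOn fun t ht => hm t (interior_subset ht)
  have c1 : IsClosed (core A0 ∪ (fun t : ℝ => B t) '' Icc (-T) T) :=
    d0.an.isCompact_core.isClosed.union (isCompact_Icc.image cB).isClosed
  obtain ⟨ε0, e0, e1⟩ := exists_lt h (hO.inter c1.isOpen_compl) fun x hx => ⟨hZ hx, by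
    rintro (a | ⟨t, -, rfl⟩)
    · exact d0.rg (core_subset _ a) hx
    · exact h.off _ hx⟩
  obtain ⟨ε, ⟨e2, e3⟩, e4⟩ := exists_reg hU h.sm e0
  have nZ : ∀ y, η y = ε → y ∈ Zᶜ := fun y e hy => e2.ne' (e ▸ (h.zero y).2 hy)
  have big : ∀ t : ℝ, η (B t) = ε → T < |t| := fun t e => not_le.1 fun a =>
    (e1 _ (e ▸ e3)).2 (Or.inr ⟨t, abs_le.1 a, rfl⟩)
  obtain ⟨s, hs, es⟩ : ∃ s, T ≤ s ∧ η (B s) = ε := by
    have a1 : Tendsto (fun s : ℝ => η (B s)) atTop (𝓝 0) :=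
      h.lim.mono_left (by rw [cocompact_eq_atBot_atTop]; exact le_sup_right)
    obtain ⟨R, a2, a3⟩ := ((a1.eventually (gt_mem_nhds e2)).and (eventually_ge_atTop T)).exists
    have a4 : ε ≤ η (B T) := e3.le.trans (not_lt.1 fun a =>
      (e1 _ a).2 (Or.inr ⟨T, ⟨by linarith, le_rfl⟩, rfl⟩))
    obtain ⟨s, a5, a6⟩ := intermediate_value_Icc' a3 ch.continuousOn ⟨a2.le, a4⟩
    exact ⟨s, a5.1, a6⟩
  obtain ⟨γ, k1, k2, k3⟩ := exists_level X.o hU h.cont h.sm (fun y e => ⟨nZ y e, e4 y (nZ y e) e⟩) es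
  by_cases hcase : ∀ t, γ t ∈ core B → ∃ n : ℤ, t = n
  · obtain ⟨g, W, w1, w2, w3, w4, w5, w6⟩ := exists_lift (h.st.1 s).1 k1.sm k2
    have dg := ((w3.contDiffAt (w1.mem_nhds w2)).differentiableAt (by simp)).hasDerivAt
    have dF : DifferentiableAt ℝ (η ∘ B) s := (contMDiffAt_iff_contDiffAt.1
      ((h.sm.contMDiffAt (hU.mem_nhds (h.off s))).comp _ (h.st.1 s).1.contMDiffAt)).differentiableAt
      (by simp)
    have a1 : fderiv ℝ (η ∘ B) s (deriv g 0) = 0 := by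
      have b1 := (w4 ▸ dF).hasFDerivAt.comp_hasDerivAt 0 dg
      have b2 : HasDerivAt ((η ∘ B) ∘ g) 0 0 := (hasDerivAt_const 0 ε).congr_of_eventuallyEq
        (eventually_of_mem (w1.mem_nhds w2) fun u hu => by
          show η (B (g u)) = ε
          rw [← w5 u hu, k3])
      rw [← w4]; exact b1.unique b2
    have a2 : fderiv ℝ (η ∘ B) s 1 < 0 := by
      have b1 := dF.hasFDerivAt.comp_hasDerivAt s (ofRealCLM.hasDerivAt (x := s))
      have := hm s hs
      rwa [show deriv (fun s : ℝ => η (B s)) s = _ from b1.deriv] at this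
    have a3 : (deriv g 0).im ≠ 0 := fun b => by
      rw [lin_C, b, zero_mul, add_zero, mul_eq_zero] at a1
      have : deriv g 0 = 0 := Complex.ext (a1.resolve_right a2.ne) b
      exact k1.imm 0 (by rw [this, map_zero] at w6; exact w6)
    have hb : HasDerivAt (fun r : ℝ => ((-(deriv g 0).im * r : ℝ) : ℂ)) (-(deriv g 0).im : ℝ)
        (0 : ℂ).im := by
      simpa using ((hasDerivAt_id (0 : ℝ)).const_mul (-(deriv g 0).im)).ofReal_comp
    have hk := pm_pl (b := fun r : ℝ => ((-(deriv g 0).im * r : ℝ) : ℂ)) w1 isOpen_univ w3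
      (ofRealCLM.contDiff.comp (contDiff_const.mul contDiff_id)).contDiffOn (z := 0) w2 trivial (by
        rw [hb.deriv]
        simpa [dd] using mul_self_pos.2 a3)
    obtain ⟨A, δ, d1, d2⟩ := dual_of htub X hU h.st k1 (by rintro _ ⟨t, rfl⟩; exact nZ _ (k3 t))
      (Pm.comp (h.st.1 _) hk) (eventually_of_mem (w1.mem_nhds w2) fun u hu => by simp [w5 u hu])
      (s := s) (neg_ne_zero.2 a3) (Eventually.of_forall fun y => by simp [w4]) hcase
    refine ⟨A, _, _, δ, d1, Or.inl ?_⟩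
    rw [d2]
    rintro _ ⟨t, rfl⟩
    exact (e1 _ (k3 t ▸ e3)).1
  · push Not at hcase
    obtain ⟨t, ⟨s', hs'⟩, ht⟩ := hcase
    have b1 : η (B s') = ε := by rw [show B s' = γ t from hs', k3]
    have b2 : s' < 0 := by
      by_contra b
      have b3 := big s' b1
      rw [abs_of_nonneg (not_lt.1 b)] at b3
      obtain rfl : s' = s := anti.injOn b3.le hs (b1.trans es.symm)
      obtain ⟨n, hn⟩ := (k1.inj 0 t).1 (k2.trans hs')
      exact ht n (by simpa using hn)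
    have b3 : ∀ u : ℝ, u ≠ 0 → B u ∈ Zᶜ \ core A0 := fun u hu => ⟨h.off _, fun a => hu (d0.one u a)⟩
    refine ⟨A0, _, _, δ0, d0, Or.inr (d0.conn hU (conn_U h) ((core_subset _).trans d0.rg)
      (T := ((fun u : ℝ => B u) '' Ioi 0 ∪ range γ) ∪ (fun u : ℝ => B u) '' Iio 0)
      (((isPreconnected_Ioi.image _ cB.continuousOn).union (B s)
        (mem_image_of_mem (fun u : ℝ => B u) (show s ∈ Ioi 0 from show 0 < s by linarith)) (show B s ∈ range γ from ⟨0, k2⟩)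
        (isPreconnected_range k1.sm.continuous)).union (B s')
        (Or.inr (show B s' ∈ range γ from ⟨t, hs'.symm⟩))
        (mem_image_of_mem (fun u : ℝ => B u) (show s' ∈ Iio 0 from b2))
        (isPreconnected_Iio.image _ cB.continuousOn)) ?_
      fun u hu => hu.lt_or_gt.elim (fun a => Or.inr ⟨u, a, rfl⟩) fun a => Or.inl (Or.inl ⟨u, a, rfl⟩))⟩
    rintro _ ((⟨u, hu, rfl⟩ | ⟨u, rfl⟩) | ⟨u, hu, rfl⟩)
    · exact b3 u (ne_of_gt hu)
    · exact ⟨nZ _ (k3 u), fun a => (e1 _ (k3 u ▸ e3)).2 (Or.inl a)⟩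
    · exact b3 u (ne_of_lt hu)

/-- reversing a non-separating curve -/
theorem exists_rev (harx : Arcx) (hnf : Nf1) (hpl : Plumb) (X : Sf) (htw : TW X.o)
    (hX : IsPreconnected (univ : Set X.R)) {U : Set X.R} (hU : IsOpen U) {A : ℂ → X.R}
    (hA : An X.o A) (hAU : core A ⊆ U) (hc : IsPreconnected (U \ core A)) :
    ∃ A', An X.o A' ∧ core A' = core A ∧ ∃ r ∈ K X.o, Near r Uᶜ ∧
      ∃ δ > (0 : ℝ), ∀ z : ℂ, |z.im| < δ → r (A' (-z)) = A' z := by
  obtain ⟨γ, g1, g2, g3, c, hc, g4⟩ := harx X U (core A) A hU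
    (hU.sdiff hA.isCompact_core.isClosed) hc (hA.1 0) (hAU (mem_core rfl))
    (Eventually.of_forall fun z => hA.mem_core)
  have hd : HasDerivAt (fun t : ℝ => (c * t * I : ℂ)) (c * I) 0 := by
    simpa using ((ofRealCLM.hasDerivAt (x := (0 : ℝ))).const_mul (c : ℂ)).mul_const I
  obtain ⟨A', B', δ, θ, ε, hN, a1, -⟩ := hnf X U A γ 1 (fun _ => 0) hU hA hAU g1 g2
    (fun _ _ _ _ => Subsingleton.elim _ _) (fun _ => ⟨fun t : ℝ => c * t * I,
      ((contDiff_const.mul ofRealCLM.contDiff).mul contDiff_const).contDiffAt, g4, by simp,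
      by rw [hd.deriv]; simpa using hc.ne'⟩) fun s hs => ⟨0, by simpa using g3 s hs⟩
  have e0 : ε 0 ≠ 0 := by rcases hN.sgn 0 with e | e <;> simp [e]
  have e1 : ∀ z : ℂ, |(θ 0 + ε 0 * z).im| = |z.im| := fun z => by
    rcases hN.sgn 0 with e | e <;> simp [e]
  obtain ⟨k, k1, k2, k3, δ', hδ', k4⟩ := hpl X U (fun z => A' (θ 0 + ε 0 * z)) B' δ hX
    ⟨hN.hA.affine _ (hN.sgn 0), hN.hB, by rintro _ ⟨z, rfl⟩; exact hN.rA ⟨_, rfl⟩, hN.rB, hN.pos,
      fun _ => Or.inl rfl, fun _ z b1 b2 => by simpa [mul_assoc] using hN.box 0 z b1 b2,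
      fun z w b1 b2 e => hN.only _ w (by rwa [e1]) b2 e, hN.sept, fun i j m b => by
        obtain rfl := Subsingleton.elim i j
        exact hN.sepθ i i m (by simpa using b)⟩
  refine ⟨fun z => A' (θ 0 + ε 0 * z), hN.hA.affine (θ 0) (hN.sgn 0),
    (core_affine A' (θ 0) e0).trans (core_congr a1), k * k,
    mul_mem (k3 htw) (k3 htw), k2.mul k2, δ', hδ', fun z hz => ?_⟩
  have b := k4 (-z) (by simpa using hz)
  rw [Equiv.Perm.mul_apply, b.1, b.2, neg_neg]

/-- fixing a non-separating curve -/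
theorem fix_curve (harx : Arcx) (hnf : Nf1) (hpl : Plumb) (hlk : Lk) (hco : Coll) (X : Sf)
    (htw : TW X.o) (hX : IsPreconnected (univ : Set X.R)) {U : Set X.R} (hU : IsOpen U)
    {A : ℂ → X.R} (hA : An X.o A) (hAU : core A ⊆ U) (hc : IsPreconnected (U \ core A))
    {g : Equiv.Perm X.R} (hg : g ∈ G X.o) (hN : Near g Uᶜ) :
    ∃ k ∈ K X.o, Near (k * g) (core A ∪ Uᶜ) := by
  obtain ⟨A', a1, a2, r, r1, r2, δ, hδ, r3⟩ := exists_rev harx hnf hpl X htw hX hU hA hAU hc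
  rw [← a2] at hAU hc ⊢
  have gU := mem_iff_of_fix (f := g) (U := U) fun x hx => hN.fix hx
  have e1 : U \ core (g ∘ A') = g '' (U \ core A') := by
    rw [core_comp, image_sdiff g.injective]
    congr 1
    exact Subset.antisymm (fun x hx => ⟨g⁻¹ x, (gU _).1 (by simpa using hx), by simp⟩)
      (by rintro _ ⟨x, hx, rfl⟩; exact (gU x).2 hx)
  obtain ⟨k, k1, k2, k3, k4⟩ := hlk X U (g ∘ A') A' hX hU (a1.comp hg) a1
    (by rw [core_comp]; rintro _ ⟨x, hx, rfl⟩; exact (gU x).2 (hAU hx)) hAU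
    (e1 ▸ hc.image _ (G_cont hg).continuousOn) hc
  have e2 : core (k ∘ (g ∘ A')) = core A' := by rw [core_comp, k3]
  obtain ⟨φ, p1, p2, ε, hε, δ', hδ', p3⟩ := hco X _ A' U ((a1.comp hg).comp k1) a1 e2 hU (e2 ▸ hAU)
  have key : ∀ f : Equiv.Perm X.R, (∀ z : ℂ, |z.im| < min δ δ' → f (A' z) = A' z) →
      Near f (core A') := fun f hf => near_iff_open.2 ⟨A' '' {z | |z.im| < min δ δ'},
    isOpenMap_of_pm a1.1 _ (isOpen_lt (by fun_prop) continuous_const),
    by rintro _ ⟨t, rfl⟩; exact ⟨t, by simp [hδ, hδ'], rfl⟩, by rintro _ ⟨z, hz, rfl⟩; exact hf z hz⟩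
  rcases hε with rfl | rfl
  · refine ⟨φ 1 * k, mul_mem p1.one_mem (k4 htw), (key _ fun z hz => ?_).union
      (((p2.near 1).mul k2).mul hN)⟩
    simpa using p3 z (hz.trans_le (min_le_right _ _))
  · refine ⟨r * φ 1 * k, mul_mem (mul_mem r1 p1.one_mem) (k4 htw), (key _ fun z hz => ?_).union
      (((r2.mul (p2.near 1)).mul k2).mul hN)⟩
    have := p3 z (hz.trans_le (min_le_right _ _))
    simp only [comp_apply, ofReal_neg, ofReal_one, neg_mul, one_mul] at this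
    simp only [Equiv.Perm.mul_apply, this]
    exact r3 z (hz.trans_le (min_le_left _ _))

/-- **ARC** -/
theorem arcS (harx : Arcx) (htub : Tub) (hnf : Nf1) (hpl : Plumb) (hlk : Lk) (hco : Coll)
    (hcap : Cap) (hpush : Push) : ArcS := by
  intro X Z B η htw h g hg hN
  obtain ⟨O, hO, hZ, hgO⟩ := near_iff_open.1 hN
  obtain ⟨A, s, σ, δ, d, hd⟩ := exists_dual harx htub X h hO hZ
  have cU : core A ⊆ Zᶜ := (core_subset _).trans d.rg
  obtain ⟨k, k1, k2⟩ : ∃ k ∈ K X.o, Near (k * g) (core A ∪ Z) := by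
    rcases hd with hd | hd
    · exact ⟨1, one_mem _, near_iff_open.2 ⟨O, hO, union_subset hd hZ, hgO⟩⟩
    · simpa using fix_curve harx hnf hpl hlk hco X htw (conn_univ h) h.cl.isOpen_compl d.an cU hd hg
        (by rwa [compl_compl])
  have s0 : (σ : ℂ) ≠ 0 := ofReal_ne_zero.2 d.ne
  have e1 : ∀ y ∈ Ioc 0 δ, B (s + σ * y) = A (y * I) := fun y hy =>
    (d.eq y (by rw [abs_of_pos hy.1]; exact hy.2)).symm
  obtain ⟨k', l1, l2⟩ := half hcap hpush X htw d.an (d.ns h) (h.st.affine s0 s) h.cl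
    (disjoint_right.2 cU) le_rfl d.pos e1
    (fun y hy => ⟨d.off hy.ne', h.off _, fun r hr => absurd hr.1 (not_lt.2 hr.2)⟩)
    (ev_mem h s d.ne) (mul_mem (K_le k1) hg) (by simpa using k2)
  have cB : Continuous fun y : ℝ => B (s + σ * y) := (cont_of_pm h.st.1).comp (by fun_prop)
  have ne : ∀ y r : ℝ, 0 < y → 0 < r → B (s + (-σ : ℝ) * y) ≠ B (s + σ * r) := fun y r hy hr e => by
    have a1 : s + -σ * y = s + σ * r := by exact_mod_cast h.st.2 e
    exact mul_ne_zero d.ne (add_pos hy hr).ne' (by linarith)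
  obtain ⟨k'', m1, m2⟩ := half hcap hpush X htw d.neg.an (d.neg.ns h)
    (h.st.affine (ofReal_ne_zero.2 d.neg.ne) s) (closed_ray h.cl cB (ev_mem h s d.ne) δ)
    (by
      rw [core_neg, disjoint_left]
      rintro _ (hx | ⟨y, hy, rfl⟩)
      · exact fun a => cU a hx
      · exact d.off (d.pos.trans_le hy).ne') d.pos.le d.pos
    (fun y hy => (d.neg.eq y (by rw [abs_of_pos hy.1]; exact hy.2)).symm)
    (fun y hy => ⟨d.neg.off hy.ne', by
      rintro (a | ⟨r, hr, a⟩)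
      · exact h.off _ a
      · exact ne y r hy (d.pos.trans_le hr) a.symm, fun r hr => by
      rw [neg_neg, ← e1 r hr]; exact ne y r hy hr.1⟩)
    (fun O hO hZ => ev_mem h s d.neg.ne O hO (subset_union_left.trans hZ))
    (mul_mem (K_le l1) (mul_mem (K_le k1) hg)) (l2.mono (by
      rw [core_neg]
      rintro x (hx | (hx | ⟨y, hy, rfl⟩) | ⟨r, hr, rfl⟩)
      · exact Or.inl (Or.inl hx)
      · exact Or.inl (Or.inr (Or.inl hx))
      · exact Or.inr ⟨y, d.pos.trans_le hy, rfl⟩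
      · exact Or.inr ⟨r, hr.1, by simp only [neg_neg]; exact e1 r hr⟩))
  refine ⟨k'' * k' * k, mul_mem (mul_mem m1 l1) k1, ?_⟩
  rw [mul_assoc, mul_assoc]
  refine m2.mono ?_
  rintro x (hx | ⟨t, rfl⟩)
  · exact Or.inl (Or.inr (Or.inl (Or.inl hx)))
  · obtain ⟨y, rfl⟩ : ∃ y : ℝ, t = s + σ * y := ⟨(t - s) / σ, by field_simp [d.ne]; ring⟩
    rcases lt_trichotomy y 0 with hy | rfl | hy
    · exact Or.inr ⟨-y, neg_pos.2 hy, by simp⟩
    · refine Or.inl (Or.inl ?_)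
      rw [core_neg]
      exact ⟨0, by simpa using d.eq 0 (by simpa using d.pos.le)⟩
    · rcases le_total y δ with a | a
      · exact Or.inl (Or.inr (Or.inr ⟨y, ⟨hy, a⟩, by simpa using (e1 y ⟨hy, a⟩).symm⟩))
      · exact Or.inl (Or.inr (Or.inl (Or.inr ⟨y, a, by simp⟩)))

end Crest.Agent.X212.Arc9
end
end

-- ▼ part X212/Prf6/All

/-!
# Row 212, PERF (helper6): assembly
-/

namespace Crest.Agent.X212.Prf6

theorem lk0 : Lk :=
  Mcg32.lk Tub3.nf0 Tub3.nf1 Tub3.tub Arx49.dual2 Plb19.plumb (Mcg32.surg Tub3.tub)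

theorem graph0 : Graph := graph_of Mor94.morse Mor94.noc Cut44.cutS

theorem simp0 : Simp := Lad50.Si.simp_of graph0 Arx49.arcx Tub3.tub

theorem push0 : Push := push simp0 Grm47.germ1 Grm47.germ2

theorem arcS0 : ArcS :=
  Arc9.arcS Arx49.arcx Tub3.tub Tub3.nf1 Plb19.plumb lk0 Lad50.Co.coll Cap52.cap push0

theorem lant0 : Lant := lant Cap52.cap

/-- **PERF**: for genus at least three every positive diffeomorphism is a product of commutators
and of ends of isotopies -/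
theorem perf : Perf :=
  perf_of Grm47.germ1 Lad50.Sm.smale lk0 Lad50.Co.coll lant0 arcS0 graph0

end Crest.Agent.X212.Prf6
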